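import Vale.Agent.P286.H710.Om

/-!
# Contractions, Lie derivatives and degrees of differential forms
-/

namespace Vale.Agent.P286.H710

open KaehlerDifferential

noncomputable section

variable {k A B : Type} [CommRing k] [CommRing A] [Algebra k A] [CommRing B] [Algebra k B]

/-- The contraction with a vector field. -/
def Om.ct (v : Derivation k A A) : Om k A →ₗ[A] Om k A :=
  CliffordAlgebra.contractLeft v.liftKaehlerDifferential

theorem Om.ct_alg (v : Derivation k A A) (a : A) : Om.ct v (algebraMap A _ a) = 0 :=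
  CliffordAlgebra.contractLeft_algebraMap _ _ _

theorem Om.ct_one (v : Derivation k A A) : Om.ct v (1 : Om k A) = 0 :=
  CliffordAlgebra.contractLeft_one _ _

theorem Om.ct_ι (v : Derivation k A A) (m : Ω[A⁄k]) :
    Om.ct v (ExteriorAlgebra.ι A m) = algebraMap A _ (v.liftKaehlerDifferential m) :=
  CliffordAlgebra.contractLeft_ι _ _ _

theorem Om.ct_dd (v : Derivation k A A) (b : A) : Om.ct v (Om.dd b) = algebraMap A _ (v b) := by
  rw [Om.dd, Om.ct_ι, Derivation.liftKaehlerDifferential_comp_D]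

theorem Om.ct_ι_mul (v : Derivation k A A) (m : Ω[A⁄k]) (x : Om k A) :
    Om.ct v (ExteriorAlgebra.ι A m * x) =
      v.liftKaehlerDifferential m • x - ExteriorAlgebra.ι A m * Om.ct v x :=
  CliffordAlgebra.contractLeft_ι_mul _ _ _

theorem Om.ct_mul (v : Derivation k A A) (x y : Om k A) :
    Om.ct v (x * y) = Om.ct v x * y + Om.sg x * Om.ct v y := by
  induction x using Om.induction generalizing y with
  | alg a =>
    rw [← Algebra.smul_def, map_smul, Om.ct_alg, zero_mul, zero_add, Om.sg.commutes,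
      Algebra.smul_def]
  | dd b =>
    rw [Om.ct_dd, Om.sg_dd, Om.dd, Om.ct_ι_mul, Derivation.liftKaehlerDifferential_comp_D,
      Algebra.smul_def, neg_mul, sub_eq_add_neg]
  | mul x z hx hz =>
    rw [mul_assoc, hx, hz, hx, map_mul]
    noncomm_ring
  | add x z hx hz =>
    rw [add_mul, map_add, hx, hz, map_add, map_add]
    noncomm_ring

theorem Om.ct_sg (v : Derivation k A A) (x : Om k A) : Om.ct v (Om.sg x) = - Om.sg (Om.ct v x) := by
  induction x using Om.induction with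
  | alg a => rw [Om.sg.commutes, Om.ct_alg, map_zero, neg_zero]
  | dd b => rw [Om.sg_dd, map_neg, Om.ct_dd, Om.sg.commutes]
  | mul x y hx hy =>
    rw [map_mul, Om.ct_mul, hx, hy, Om.ct_mul, map_add, map_mul, map_mul]
    noncomm_ring
  | add x y hx hy => rw [map_add, map_add, hx, hy, map_add, map_add, neg_add]

theorem Om.ct_ct (v : Derivation k A A) (x : Om k A) : Om.ct v (Om.ct v x) = 0 :=
  CliffordAlgebra.contractLeft_contractLeft _ _

theorem Om.ct_comm (v w : Derivation k A A) (x : Om k A) :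
    Om.ct v (Om.ct w x) = - Om.ct w (Om.ct v x) := CliffordAlgebra.contractLeft_comm _ _ _

/-- The Lie derivative. -/
def Om.lie (v : Derivation k A A) (x : Om k A) : Om k A := Om.d (Om.ct v x) + Om.ct v (Om.d x)

theorem Om.lie_add (v : Derivation k A A) (x y : Om k A) :
    Om.lie v (x + y) = Om.lie v x + Om.lie v y := by
  unfold Om.lie
  rw [map_add, Om.d_add, Om.d_add, map_add]
  abel

theorem Om.lie_alg (v : Derivation k A A) (a : A) :
    Om.lie v (algebraMap A _ a) = algebraMap A _ (v a) := by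
  unfold Om.lie
  rw [Om.ct_alg, Om.d_zero, Om.d_algebraMap, Om.ct_dd, zero_add]

theorem Om.lie_dd (v : Derivation k A A) (b : A) : Om.lie v (Om.dd b) = Om.dd (v b) := by
  unfold Om.lie
  rw [Om.ct_dd, Om.d_algebraMap, Om.d_dd, map_zero, add_zero]

theorem Om.lie_mul (v : Derivation k A A) (x y : Om k A) :
    Om.lie v (x * y) = Om.lie v x * y + x * Om.lie v y := by
  unfold Om.lie
  rw [Om.ct_mul, Om.d_add, Om.d_mul, Om.d_mul, Om.d_mul, map_add, Om.ct_mul, Om.ct_mul,
    Om.d_sg, Om.ct_sg, Om.sg_sg]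
  noncomm_ring

theorem Om.lie_d (v : Derivation k A A) (x : Om k A) : Om.lie v (Om.d x) = Om.d (Om.lie v x) := by
  unfold Om.lie
  rw [Om.d_d, map_zero, add_zero, Om.d_add, Om.d_d, zero_add]

/-- The forms of degree `p`. -/
abbrev Om.gr (k A : Type) [CommRing k] [CommRing A] [Algebra k A] (p : ℕ) : Submodule A (Om k A) :=
  ⋀[A]^p (Ω[A⁄k])

theorem Om.gr_mul {p q : ℕ} {x y : Om k A} (hx : x ∈ Om.gr k A p) (hy : y ∈ Om.gr k A q) :
    x * y ∈ Om.gr k A (p + q) := SetLike.mul_mem_graded hx hy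

theorem Om.alg_mem (a : A) : algebraMap A (Om k A) a ∈ Om.gr k A 0 := by
  change _ ∈ (LinearMap.range (ExteriorAlgebra.ι A (M := Ω[A⁄k])) ^ 0)
  rw [pow_zero]
  exact Submodule.algebraMap_mem a

theorem Om.ι_mem (m : Ω[A⁄k]) : ExteriorAlgebra.ι A m ∈ Om.gr k A 1 := by
  change _ ∈ (LinearMap.range (ExteriorAlgebra.ι A (M := Ω[A⁄k])) ^ 1)
  rw [pow_one]
  exact ⟨m, rfl⟩

theorem Om.dd_mem (b : A) : (Om.dd b : Om k A) ∈ Om.gr k A 1 := Om.ι_mem _

theorem Om.cons_mem {p : ℕ} (b : A) {x : Om k A} (hx : x ∈ Om.gr k A p) :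
    Om.dd b * x ∈ Om.gr k A (p + 1) := by
  rw [add_comm]
  exact Om.gr_mul (Om.dd_mem b) hx

theorem Om.gr_zero {x : Om k A} (hx : x ∈ Om.gr k A 0) : ∃ a : A, algebraMap A _ a = x := by
  have h : x ∈ (1 : Submodule A (Om k A)) := by
    rw [← pow_zero (LinearMap.range (ExteriorAlgebra.ι A (M := Ω[A⁄k])))]
    exact hx
  exact Submodule.mem_one.1 h

theorem Om.gr_ind {P : ℕ → Om k A → Prop} (alg : ∀ a : A, P 0 (algebraMap A _ a))
    (cons : ∀ p b x, x ∈ Om.gr k A p → P p x → P (p + 1) (Om.dd b * x))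
    (smul : ∀ p (a : A) x, x ∈ Om.gr k A p → P p x → P p (a • x))
    (add : ∀ p x y, x ∈ Om.gr k A p → y ∈ Om.gr k A p → P p x → P p y → P p (x + y))
    {p : ℕ} {x : Om k A} (hx : x ∈ Om.gr k A p) : P p x := by
  have zero : ∀ p, P p 0 := by
    intro p
    induction p with
    | zero =>
      have := alg 0
      rwa [map_zero] at this
    | succ p ih =>
      have := cons p 0 0 (Submodule.zero_mem _) ih
      rwa [mul_zero] at this
  induction p generalizing x with
  | zero =>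
    obtain ⟨a, rfl⟩ := Om.gr_zero hx
    exact alg a
  | succ p ih =>
    have h : x ∈ LinearMap.range (ExteriorAlgebra.ι A (M := Ω[A⁄k])) * Om.gr k A p := by
      rw [← pow_succ']
      exact hx
    have key : ∀ y, y ∈ LinearMap.range (ExteriorAlgebra.ι A (M := Ω[A⁄k])) * Om.gr k A p →
        y ∈ Om.gr k A (p + 1) := by
      intro y hy
      change y ∈ (LinearMap.range (ExteriorAlgebra.ι A (M := Ω[A⁄k]))) ^ (p + 1)
      rw [pow_succ']
      exact hy
    suffices h' : x ∈ Om.gr k A (p + 1) ∧ P (p + 1) x from h'.2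
    refine Submodule.mul_induction_on h ?_ ?_
    · rintro _ ⟨m, rfl⟩ y hy
      refine ⟨key _ (Submodule.mul_mem_mul ⟨m, rfl⟩ hy), ?_⟩
      have hm : m ∈ Submodule.span A (Set.range (D k A)) := by
        rw [KaehlerDifferential.span_range_derivation]
        trivial
      induction hm using Submodule.span_induction with
      | mem z hz =>
        obtain ⟨b, rfl⟩ := hz
        exact cons p b y hy (ih hy)
      | zero =>
        rw [map_zero, zero_mul]
        exact zero _
      | add m n _ _ hm hn =>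
        rw [map_add, add_mul]
        exact add _ _ _ (key _ (Submodule.mul_mem_mul ⟨m, rfl⟩ hy))
          (key _ (Submodule.mul_mem_mul ⟨n, rfl⟩ hy)) hm hn
      | smul a m _ hm =>
        rw [map_smul, smul_mul_assoc]
        exact smul _ _ _ (key _ (Submodule.mul_mem_mul ⟨m, rfl⟩ hy)) hm
    · rintro y z ⟨hy1, hy2⟩ ⟨hz1, hz2⟩
      exact ⟨add_mem hy1 hz1, add _ _ _ hy1 hz1 hy2 hz2⟩

/-- Forms of degree `p` are sums of products of functions and exact one-forms. -/
@[elab_as_elim]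
theorem Om.gr_induction {P : ∀ (p : ℕ) (x : Om k A), x ∈ Om.gr k A p → Prop}
    (alg : ∀ a : A, P 0 (algebraMap A _ a) (Om.alg_mem a))
    (cons : ∀ p b x (hx : x ∈ Om.gr k A p), P p x hx → P (p + 1) (Om.dd b * x) (Om.cons_mem b hx))
    (smul : ∀ p (a : A) x (hx : x ∈ Om.gr k A p), P p x hx →
      P p (a • x) (Submodule.smul_mem _ a hx))
    (add : ∀ p x y (hx : x ∈ Om.gr k A p) (hy : y ∈ Om.gr k A p), P p x hx → P p y hy →
      P p (x + y) (add_mem hx hy))
    {p : ℕ} {x : Om k A} (hx : x ∈ Om.gr k A p) : P p x hx := by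
  have h : ∃ h : x ∈ Om.gr k A p, P p x h := by
    refine Om.gr_ind (P := fun p x => ∃ h : x ∈ Om.gr k A p, P p x h) ?_ ?_ ?_ ?_ hx
    · exact fun a => ⟨_, alg a⟩
    · exact fun p b x _ ⟨h1, h2⟩ => ⟨_, cons p b x h1 h2⟩
    · exact fun p b x _ ⟨h1, h2⟩ => ⟨_, smul p b x h1 h2⟩
    · exact fun p x y _ _ ⟨h1, h2⟩ ⟨h3, h4⟩ => ⟨_, add p x y h1 h3 h2 h4⟩
  exact h.2

theorem Om.sg_gr {p : ℕ} {x : Om k A} (hx : x ∈ Om.gr k A p) : Om.sg x = (-1) ^ p * x := by
  induction hx using Om.gr_induction with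
  | alg a => rw [Om.sg.commutes, pow_zero, one_mul]
  | cons p b x _ h =>
    have h2 : Commute (Om.dd b : Om k A) ((-1) ^ p) := (Commute.neg_one_right _).pow_right p
    rw [map_mul, h, Om.sg_dd, pow_succ, neg_mul, ← mul_assoc, h2.eq, mul_assoc, mul_neg, mul_one,
      neg_mul]
  | smul p a x _ h => rw [map_smul, h, mul_smul_comm]
  | add p x y _ _ hx hy => rw [map_add, hx, hy, mul_add]

theorem Om.d_mem {p : ℕ} {x : Om k A} (hx : x ∈ Om.gr k A p) : Om.d x ∈ Om.gr k A (p + 1) := by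
  induction hx using Om.gr_induction with
  | alg a =>
    rw [Om.d_algebraMap]
    exact Om.dd_mem a
  | cons p b x _ h =>
    rw [Om.d_mul, Om.d_dd, zero_mul, add_zero, Om.sg_dd, neg_mul]
    exact neg_mem (Om.cons_mem b h)
  | smul p a x hx h =>
    rw [Om.d_smul]
    exact add_mem (Submodule.smul_mem _ _ h) (Om.cons_mem a hx)
  | add p x y _ _ hx hy =>
    rw [Om.d_add]
    exact add_mem hx hy

theorem Om.ct_mem (v : Derivation k A A) {p : ℕ} {x : Om k A} (hx : x ∈ Om.gr k A (p + 1)) :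
    Om.ct v x ∈ Om.gr k A p := by
  have h : ∀ {q : ℕ} {x : Om k A}, x ∈ Om.gr k A q → (q = 0 ∧ Om.ct v x = 0) ∨
      (∃ p, q = p + 1 ∧ Om.ct v x ∈ Om.gr k A p) := by
    intro q x hx
    induction hx using Om.gr_induction with
    | alg a => exact Or.inl ⟨rfl, Om.ct_alg _ _⟩
    | cons p b x hx h =>
      refine Or.inr ⟨p, rfl, ?_⟩
      rw [Om.ct_mul, Om.ct_dd, ← Algebra.smul_def, Om.sg_dd, neg_mul]
      refine add_mem (Submodule.smul_mem _ _ hx) (neg_mem ?_)
      rcases h with ⟨_, h2⟩ | ⟨p', rfl, h2⟩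
      · rw [h2, mul_zero]
        exact Submodule.zero_mem _
      · exact Om.cons_mem b h2
    | smul p a x hx h =>
      rcases h with ⟨rfl, h2⟩ | ⟨p', rfl, h2⟩
      · exact Or.inl ⟨rfl, by rw [map_smul, h2, smul_zero]⟩
      · refine Or.inr ⟨p', rfl, ?_⟩
        rw [map_smul]
        exact Submodule.smul_mem _ _ h2
    | add p x y _ _ hx hy =>
      rcases hx with ⟨rfl, h2⟩ | ⟨p', rfl, h2⟩
      · rcases hy with ⟨_, h3⟩ | ⟨p'', h4, h3⟩
        · exact Or.inl ⟨rfl, by rw [map_add, h2, h3, add_zero]⟩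
        · omega
      · rcases hy with ⟨h4, h3⟩ | ⟨p'', h4, h3⟩
        · omega
        · obtain rfl : p' = p'' := by omega
          refine Or.inr ⟨p', rfl, ?_⟩
          rw [map_add]
          exact add_mem h2 h3
  rcases h hx with ⟨h1, _⟩ | ⟨q, h1, h2⟩
  · omega
  · obtain rfl : p = q := by omega
    exact h2

theorem Om.ct_gr_zero (v : Derivation k A A) {x : Om k A} (hx : x ∈ Om.gr k A 0) :
    Om.ct v x = 0 := by
  obtain ⟨a, rfl⟩ := Om.gr_zero hx
  exact Om.ct_alg v a

theorem Om.lie_mem (v : Derivation k A A) {p : ℕ} {x : Om k A} (hx : x ∈ Om.gr k A p) :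
    Om.lie v x ∈ Om.gr k A p := by
  unfold Om.lie
  refine add_mem ?_ (Om.ct_mem v (Om.d_mem hx))
  rcases p with _ | p
  · rw [Om.ct_gr_zero v hx, Om.d_zero]
    exact Submodule.zero_mem _
  · exact Om.d_mem (Om.ct_mem v hx)

theorem Om.pb_mem (f : A →ₐ[k] B) {p : ℕ} {x : Om k A} (hx : x ∈ Om.gr k A p) :
    Om.pb f x ∈ Om.gr k B p := by
  induction hx using Om.gr_induction with
  | alg a =>
    rw [Om.pb_alg]
    exact Om.alg_mem _
  | cons p b x _ h =>
    rw [map_mul, Om.pb_dd]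
    exact Om.cons_mem _ h
  | smul p a x _ h =>
    rw [Om.pb_smul]
    exact Submodule.smul_mem _ _ h
  | add p x y _ _ hx hy =>
    rw [map_add]
    exact add_mem hx hy

/-- If `da = ∑ v_i(a) dx_i` for all `a`, then `∑ dx_i ∧ ι_{v_i}` is `p` on forms of degree `p`. -/
theorem Om.sum_dd_ct {I : Type} (s : Finset I) (x : I → A) (v : I → Derivation k A A)
    (hxv : ∀ a : A, D k A a = ∑ i ∈ s, v i a • D k A (x i)) {p : ℕ} {y : Om k A}
    (hy : y ∈ Om.gr k A p) : ∑ i ∈ s, Om.dd (x i) * Om.ct (v i) y = (p : ℕ) • y := by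
  induction hy using Om.gr_induction with
  | alg a =>
    rw [zero_smul]
    exact Finset.sum_eq_zero fun i _ => by rw [Om.ct_alg, mul_zero]
  | cons p b y hy h =>
    have h1 : ∀ i ∈ s, Om.dd (x i) * Om.ct (v i) (Om.dd b * y) =
        v i b • Om.dd (x i) * y + Om.dd b * (Om.dd (x i) * Om.ct (v i) y) := by
      intro i _
      rw [Om.ct_mul, Om.ct_dd, ← Algebra.smul_def, Om.sg_dd, mul_add, mul_smul_comm,
        smul_mul_assoc, ← mul_assoc, ← mul_assoc, mul_neg]
      congr 2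
      exact (eq_neg_of_add_eq_zero_left (ExteriorAlgebra.ι_add_mul_swap _ _)).symm
    rw [Finset.sum_congr rfl h1, Finset.sum_add_distrib, ← Finset.sum_mul, ← Finset.mul_sum, h]
    have h2 : ∑ i ∈ s, v i b • (Om.dd (x i) : Om k A) = Om.dd b := by
      rw [Om.dd, hxv b, map_sum]
      exact Finset.sum_congr rfl fun i _ => (map_smul _ _ _).symm
    rw [h2, mul_smul_comm, succ_nsmul, add_comm]
  | smul p a y _ h =>
    rw [← Nat.cast_smul_eq_nsmul A] at h ⊢
    have h1 : ∀ i ∈ s, Om.dd (x i) * Om.ct (v i) (a • y) = a • (Om.dd (x i) * Om.ct (v i) y) := by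
      intro i _
      rw [map_smul, mul_smul_comm]
    rw [Finset.sum_congr rfl h1, ← Finset.smul_sum, h, smul_comm]
  | add p y z _ _ hy hz =>
    have h1 : ∀ i ∈ s, Om.dd (x i) * Om.ct (v i) (y + z) =
        Om.dd (x i) * Om.ct (v i) y + Om.dd (x i) * Om.ct (v i) z := by
      intro i _
      rw [map_add, mul_add]
    rw [Finset.sum_congr rfl h1, Finset.sum_add_distrib, hy, hz, smul_add]

end

end Vale.Agent.P286.H710
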