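import Vale.Agent.P286.H847.Ten

/-!
# Tensor products of quasi-isomorphisms
-/

namespace Vale.Agent.P286.H710

open Vale.Agent.P286.H847 Vale.Agent.P286.H847.GD Vale.Agent.P286.H847.SGD TensorProduct

noncomputable section

/-- Projections to the homogeneous parts. -/
structure Prj (M : GD) where
  P : ℤ → M.V →ₗ[ℂ] M.V
  mem : ∀ m x, P m x ∈ M.gr m
  eq : ∀ m, ∀ x ∈ M.gr m, P m x = x
  ne : ∀ m n, m ≠ n → ∀ x ∈ M.gr m, P n x = 0
  sup : ⨆ m, M.gr m = ⊤

theorem Prj.internal {M : GD} (P : Prj M) : DirectSum.IsInternal M.gr := by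
  classical
  refine DirectSum.isInternal_submodule_of_iSupIndep_of_iSup_eq_top ?_ P.sup
  intro m
  rw [Submodule.disjoint_def]
  intro x hx hx'
  have h : P.P m x = 0 := by
    have h2 : (⨆ (j : ℤ) (_ : j ≠ m), M.gr j) ≤ LinearMap.ker (P.P m) := by
      refine iSup_le fun j => iSup_le fun hj => ?_
      intro y hy
      exact P.ne j m hj y hy
    exact h2 hx'
  rw [← P.eq m x hx, h]

theorem Prj.nonempty {M : GD} (h : DirectSum.IsInternal M.gr) : Nonempty (Prj M) := by
  classical
  let e := LinearEquiv.ofBijective (DirectSum.coeLinearMap M.gr) h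
  have he : ∀ (m : ℤ) (x : M.gr m), e.symm x.1 = DirectSum.lof ℂ ℤ (fun m => M.gr m) m x := by
    intro m x
    rw [LinearEquiv.symm_apply_eq]
    exact (DirectSum.coeLinearMap_lof M.gr m x).symm
  refine ⟨⟨fun m => (M.gr m).subtype.comp ((DirectSum.component ℂ ℤ (fun m => M.gr m) m).comp
    e.symm.toLinearMap), fun m x => Subtype.property _, ?_, ?_, ?_⟩⟩
  · intro m x hx
    change ((DirectSum.component ℂ ℤ (fun m => M.gr m) m) (e.symm x) : M.V) = x
    rw [he m ⟨x, hx⟩, DirectSum.component.lof_self]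
  · intro m n hmn x hx
    change ((DirectSum.component ℂ ℤ (fun m => M.gr m) n) (e.symm x) : M.V) = 0
    rw [he m ⟨x, hx⟩]
    have : (DirectSum.component ℂ ℤ (fun m => M.gr m) n)
        (DirectSum.lof ℂ ℤ (fun m => M.gr m) m ⟨x, hx⟩) = 0 := by
      rw [DirectSum.component.of]
      simp [hmn]
    rw [this]
    rfl
  · exact (DirectSum.isInternal_submodule_iff_iSupIndep_and_iSup_eq_top _).1 h |>.2

/-- An induction principle. -/
theorem Prj.ind {M : GD} (h : ⨆ m, M.gr m = ⊤) {Q : M.V → Prop} (zero : Q 0)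
    (hom : ∀ m, ∀ x ∈ M.gr m, Q x) (add : ∀ x y, Q x → Q y → Q (x + y)) (x : M.V) : Q x := by
  have hx : x ∈ ⨆ m, M.gr m := by rw [h]; trivial
  exact Submodule.iSup_induction M.gr (motive := Q) hx (fun m x hx => hom m x hx) zero add

/-- The cone has projections. -/
def Prj.cone {M N : GD} (u : Hom M N) (P : Prj M) (R : Prj N) : Prj (Cone u) where
  P m := ((R.P m).comp (LinearMap.fst ℂ N.V M.V)).prod ((P.P (m + 1)).comp (LinearMap.snd ℂ N.V M.V))
  mem m x := ⟨R.mem m _, P.mem (m + 1) _⟩
  eq m x hx := Prod.ext (R.eq m _ hx.1) (P.eq (m + 1) _ hx.2)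
  ne m n h x hx := Prod.ext (R.ne m n h _ hx.1) (P.ne (m + 1) (n + 1) (by omega) _ hx.2)
  sup := by
    rw [eq_top_iff]
    rintro ⟨y, x⟩ -
    have h1 : ((y, 0) : N.V × M.V) ∈ ⨆ m, (Cone u).gr m := by
      induction y using Prj.ind R.sup with
      | zero => exact zero_mem _
      | hom m y hy => exact Submodule.mem_iSup_of_mem m ⟨hy, zero_mem _⟩
      | add a b ha hb =>
        have := Submodule.add_mem _ ha hb
        simpa using this
    have h2 : ((0, x) : N.V × M.V) ∈ ⨆ m, (Cone u).gr m := by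
      induction x using Prj.ind P.sup with
      | zero => exact zero_mem _
      | hom m x hx =>
        refine Submodule.mem_iSup_of_mem (m - 1) ⟨zero_mem _, ?_⟩
        change x ∈ M.gr (m - 1 + 1)
        rwa [sub_add_cancel]
      | add a b ha hb =>
        have := Submodule.add_mem _ ha hb
        simpa using this
    have := Submodule.add_mem _ h1 h2
    simpa using this

/-- A quasi-isomorphism of direct sums of homogeneous parts is a homotopy equivalence. -/
theorem exists_htpy {M N : GD} (u : Hom M N) (hM : DirectSum.IsInternal M.gr)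
    (hN : DirectSum.IsInternal N.gr) (hq : Qis u) :
    ∃ (v : Hom N M) (s : M.V →ₗ[ℂ] M.V) (t : N.V →ₗ[ℂ] N.V),
      (∀ m, ∀ x ∈ M.gr m, s x ∈ M.gr (m - 1)) ∧ (∀ m, ∀ x ∈ N.gr m, t x ∈ N.gr (m - 1)) ∧
      (∀ x, M.d (s x) + s (M.d x) = x - v.f (u.f x)) ∧
      (∀ x, N.d (t x) + t (N.d x) = x - u.f (v.f x)) := by
  obtain ⟨P⟩ := Prj.nonempty hM
  obtain ⟨R⟩ := Prj.nonempty hN
  obtain ⟨s, hs, hds⟩ := Exact.exists_contraction (Cone u) (P.cone u R).internal
    ((qis_iff_exact_cone u).1 hq)
  let c : N.V →ₗ[ℂ] M.V := (LinearMap.snd ℂ N.V M.V).comp (s.comp (LinearMap.inl ℂ N.V M.V))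
  let a : N.V →ₗ[ℂ] N.V := (LinearMap.fst ℂ N.V M.V).comp (s.comp (LinearMap.inl ℂ N.V M.V))
  let e : M.V →ₗ[ℂ] M.V := (LinearMap.snd ℂ N.V M.V).comp (s.comp (LinearMap.inr ℂ N.V M.V))
  have h1 : ∀ x : N.V, (N.d (a x) + u.f (c x) + a (N.d x) = x) ∧
      (-(M.d (c x)) + c (N.d x) = 0) := by
    intro x
    have h := hds (x, 0)
    rw [cone_d, cone_d] at h
    have e1 := congrArg Prod.fst h
    have e2 := congrArg Prod.snd h
    simp only [map_zero, add_zero, neg_zero, Prod.fst_add, Prod.snd_add] at e1 e2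
    exact ⟨e1, e2⟩
  have h2 : ∀ x : M.V, -(M.d (e x)) + (c (u.f x) - e (M.d x)) = x := by
    intro x
    have h := hds (0, x)
    rw [cone_d, cone_d] at h
    have e2 := congrArg Prod.snd h
    simp only [map_zero, zero_add, Prod.snd_add] at e2
    have e3 : ((u.f x, -(M.d x)) : N.V × M.V) = (u.f x, 0) - (0, M.d x) := by
      simp
    rw [e3, map_sub] at e2
    exact e2
  have gc : ∀ m, ∀ x ∈ N.gr m, c x ∈ M.gr m := by
    intro m x hx
    have := (hs m (x, 0) ⟨hx, zero_mem _⟩).2
    change (s (x, 0)).2 ∈ M.gr m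
    rwa [sub_add_cancel] at this
  refine ⟨⟨c, fun x => ?_, gc⟩, -e, a, ?_, ?_, ?_, ?_⟩
  · have := (h1 x).2
    rw [neg_add_eq_zero] at this
    exact this.symm
  · intro m x hx
    have := (hs (m - 1) (0, x) ⟨zero_mem _, by
      change x ∈ M.gr (m - 1 + 1)
      rwa [sub_add_cancel]⟩).2
    rw [sub_add_cancel] at this
    exact Submodule.neg_mem _ this
  · intro m x hx
    exact (hs m (x, 0) ⟨hx, zero_mem _⟩).1
  · intro x
    have h := h2 x
    change M.d (-(e x)) + -(e (M.d x)) = x - c (u.f x)
    rw [map_neg, eq_sub_iff_add_eq]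
    refine Eq.trans ?_ h
    abel
  · intro x
    have h := (h1 x).1
    change N.d (a x) + a (N.d x) = x - u.f (c x)
    rw [eq_sub_iff_add_eq]
    refine Eq.trans ?_ h
    abel

theorem iSup_of_internal {M : GD} (h : DirectSum.IsInternal M.gr) : ⨆ m, M.gr m = ⊤ :=
  ((DirectSum.isInternal_submodule_iff_iSupIndep_and_iSup_eq_top _).1 h).2

/-- Maps of degree `k` commute with the sign operators up to the sign `(-1)^k`. -/
theorem sg_deg {E E' : SGD} (hE : ⨆ m, E.gr m = ⊤) (s : E.V →ₗ[ℂ] E'.V) (k : ℤ)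
    (hs : ∀ m, ∀ x ∈ E.gr m, s x ∈ E'.gr (m + k)) (x : E.V) :
    E'.sg (s x) = (k.negOnePow : ℤ) • s (E.sg x) := by
  induction x using Prj.ind (M := E.toGD) hE with
  | zero => simp
  | hom m x hx =>
    rw [E'.sg_gr _ _ (hs m x hx), E.sg_gr _ _ hx, map_zsmul, smul_smul, Int.negOnePow_add,
      Units.val_mul, mul_comm]
  | add x y hx hy => rw [map_add, map_add, hx, hy, map_add, map_add, smul_add]

/-- Morphisms commute with the sign operators. -/
theorem sgC_of_sup {E E' : SGD} (hE : ⨆ m, E.gr m = ⊤) (u : Hom E.toGD E'.toGD) : SgC u.f := by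
  intro x
  have := sg_deg hE u.f 0 (fun m x hx => by simpa using u.deg m x hx) x
  rw [this]
  simp

theorem sg_odd_map {E E' : SGD} (hE : ⨆ m, E.gr m = ⊤) (s : E.V →ₗ[ℂ] E'.V)
    (hs : ∀ m, ∀ x ∈ E.gr m, s x ∈ E'.gr (m - 1)) (x : E.V) : E'.sg (s x) = - s (E.sg x) := by
  have := sg_deg hE s (-1) (fun m x hx => hs m x hx) x
  rw [this]
  simp

/-- A contraction of the left factor. -/
theorem htpy_left (E : SGD) (F : GD) (hE : ⨆ m, E.gr m = ⊤) (s : E.V →ₗ[ℂ] E.V)
    (hs : ∀ m, ∀ x ∈ E.gr m, s x ∈ E.gr (m - 1)) :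
    (∀ m, ∀ z ∈ (tens E F).gr m, TensorProduct.map s LinearMap.id z ∈ (tens E F).gr (m - 1)) ∧
    ∀ z, (tens E F).d (TensorProduct.map s LinearMap.id z) +
        TensorProduct.map s LinearMap.id ((tens E F).d z) =
      TensorProduct.map (E.d.comp s + s.comp E.d) LinearMap.id z := by
  constructor
  · intro m z hz
    refine map_tgr (E := E.toGD) (F := F) (E' := E.toGD) (F' := F) _ ?_ hz
    intro i j x y hij hx hy
    exact tmul_mem (by rw [← hij]; ring) (hs i x hx) hy
  · intro z
    change td E F _ + TensorProduct.map s LinearMap.id (td E F z) = _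
    induction z using TensorProduct.induction_on with
    | zero => simp
    | tmul x y =>
      rw [td_tmul, map_tmul, td_tmul, map_add, map_tmul, map_tmul, map_tmul,
        sg_odd_map (E' := E) hE s hs, neg_tmul, LinearMap.id_apply, LinearMap.id_apply,
        LinearMap.add_apply, LinearMap.comp_apply, LinearMap.comp_apply, add_tmul]
      abel
    | add x y hx hy => rw [map_add, map_add, map_add, map_add, map_add, add_add_add_comm, hx, hy]

/-- A contraction of the right factor. -/
theorem htpy_right (E : SGD) (F : GD) (s : F.V →ₗ[ℂ] F.V)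
    (hs : ∀ m, ∀ x ∈ F.gr m, s x ∈ F.gr (m - 1)) :
    (∀ m, ∀ z ∈ (tens E F).gr m, TensorProduct.map E.sg s z ∈ (tens E F).gr (m - 1)) ∧
    ∀ z, (tens E F).d (TensorProduct.map E.sg s z) +
        TensorProduct.map E.sg s ((tens E F).d z) =
      TensorProduct.map LinearMap.id (F.d.comp s + s.comp F.d) z := by
  constructor
  · intro m z hz
    refine map_tgr (E := E.toGD) (F := F) (E' := E.toGD) (F' := F) _ ?_ hz
    intro i j x y hij hx hy
    exact tmul_mem (by rw [← hij]; ring) (E.sg_mem hx) (hs j y hy)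
  · intro z
    change td E F _ + TensorProduct.map E.sg s (td E F z) = _
    induction z using TensorProduct.induction_on with
    | zero => simp
    | tmul x y =>
      rw [td_tmul, map_tmul, td_tmul, map_add, map_tmul, map_tmul, map_tmul,
        E.sg_sg, E.sg_d, neg_tmul, LinearMap.id_apply,
        LinearMap.add_apply, LinearMap.comp_apply, LinearMap.comp_apply, tmul_add]
      abel
    | add x y hx hy => rw [map_add, map_add, map_add, map_add, map_add, add_add_add_comm, hx, hy]

/-- The tensor product of an exact space with any space is exact. -/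
theorem exact_tens_left (E : SGD) (F : GD) (hdec : DirectSum.IsInternal E.gr)
    (hex : E.toGD.Exact) : (tens E F).Exact := by
  obtain ⟨s, hs, hds⟩ := Exact.exists_contraction E.toGD hdec hex
  obtain ⟨h1, h2⟩ := htpy_left E F (iSup_of_internal hdec) s hs
  have h3 : E.d.comp s + s.comp E.d = LinearMap.id := LinearMap.ext hds
  refine Exact.of_htpy (M := tens E F) (TensorProduct.map s LinearMap.id) h1 ?_
  intro z
  rw [h2, h3, TensorProduct.map_id, LinearMap.id_apply]

/-- The tensor product of any space with an exact space is exact. -/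
theorem exact_tens_right (E : SGD) (F : GD) (hdec : DirectSum.IsInternal F.gr)
    (hex : F.Exact) : (tens E F).Exact := by
  obtain ⟨s, hs, hds⟩ := Exact.exists_contraction F hdec hex
  obtain ⟨h1, h2⟩ := htpy_right E F s hs
  have h3 : F.d.comp s + s.comp F.d = LinearMap.id := LinearMap.ext hds
  refine Exact.of_htpy (M := tens E F) (TensorProduct.map E.sg s) h1 ?_
  intro z
  rw [h2, h3, TensorProduct.map_id, LinearMap.id_apply]

/-- Tensoring a quasi-isomorphism with any space. -/
theorem qis_tens_left {E E' : SGD} (F : GD) (u : Hom E.toGD E'.toGD) (hu : SgC u.f)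
    (hE : DirectSum.IsInternal E.gr) (hE' : DirectSum.IsInternal E'.gr) (hq : Qis u) :
    Qis (tmap u hu (Hom.id F)) := by
  obtain ⟨v, s, t, gs, gt, hs, ht⟩ := exists_htpy u hE hE' hq
  have hv : SgC v.f := sgC_of_sup (iSup_of_internal hE') v
  obtain ⟨s1, s2⟩ := htpy_left E F (iSup_of_internal hE) s gs
  obtain ⟨t1, t2⟩ := htpy_left E' F (iSup_of_internal hE') t gt
  have hs' : E.d.comp s + s.comp E.d = LinearMap.id - v.f.comp u.f := LinearMap.ext hs
  have ht' : E'.d.comp t + t.comp E'.d = LinearMap.id - u.f.comp v.f := LinearMap.ext ht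
  refine Qis.of_htpy _ (tmap v hv (Hom.id F)) (TensorProduct.map s LinearMap.id) s1 ?_
    (TensorProduct.map t LinearMap.id) t1 ?_
  · rintro m z -
    rw [s2, hs']
    change TensorProduct.map (LinearMap.id - v.f.comp u.f) LinearMap.id z =
      z - TensorProduct.map v.f LinearMap.id (TensorProduct.map u.f LinearMap.id z)
    induction z using TensorProduct.induction_on with
    | zero => simp
    | tmul x y => simp [sub_tmul]
    | add x y hx hy => simp only [map_add, hx, hy]; abel
  · rintro m z -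
    rw [t2, ht']
    change TensorProduct.map (LinearMap.id - u.f.comp v.f) LinearMap.id z =
      z - TensorProduct.map u.f LinearMap.id (TensorProduct.map v.f LinearMap.id z)
    induction z using TensorProduct.induction_on with
    | zero => simp
    | tmul x y => simp [sub_tmul]
    | add x y hx hy => simp only [map_add, hx, hy]; abel

theorem sgC_id (E : SGD) : SgC (E := E) (E' := E) (Hom.id E.toGD).f := fun _ => rfl

/-- Tensoring any space with a quasi-isomorphism. -/
theorem qis_tens_right (E : SGD) {F F' : GD} (u : Hom F F') (hF : DirectSum.IsInternal F.gr)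
    (hF' : DirectSum.IsInternal F'.gr) (hq : Qis u) :
    Qis (tmap (Hom.id E.toGD) (sgC_id E) u) := by
  obtain ⟨v, s, t, gs, gt, hs, ht⟩ := exists_htpy u hF hF' hq
  obtain ⟨s1, s2⟩ := htpy_right E F s gs
  obtain ⟨t1, t2⟩ := htpy_right E F' t gt
  have hs' : F.d.comp s + s.comp F.d = LinearMap.id - v.f.comp u.f := LinearMap.ext hs
  have ht' : F'.d.comp t + t.comp F'.d = LinearMap.id - u.f.comp v.f := LinearMap.ext ht
  refine Qis.of_htpy _ (tmap (Hom.id E.toGD) (sgC_id E) v) (TensorProduct.map E.sg s) s1 ?_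
    (TensorProduct.map E.sg t) t1 ?_
  · rintro m z -
    rw [s2, hs']
    change TensorProduct.map LinearMap.id (LinearMap.id - v.f.comp u.f) z =
      z - TensorProduct.map LinearMap.id v.f (TensorProduct.map LinearMap.id u.f z)
    induction z using TensorProduct.induction_on with
    | zero => simp
    | tmul x y => simp [tmul_sub]
    | add x y hx hy => simp only [map_add, hx, hy]; abel
  · rintro m z -
    rw [t2, ht']
    change TensorProduct.map LinearMap.id (LinearMap.id - u.f.comp v.f) z =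
      z - TensorProduct.map LinearMap.id u.f (TensorProduct.map LinearMap.id v.f z)
    induction z using TensorProduct.induction_on with
    | zero => simp
    | tmul x y => simp [tmul_sub]
    | add x y hx hy => simp only [map_add, hx, hy]; abel

end

end Vale.Agent.P286.H710
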