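import Vale.Agent.P286.H44.OmGD
import Vale.Agent.P286.H697.DRq1
import Vale.Agent.P286.H710.TenQ

/-!
# The de Rham algebra with its sign operator
-/

namespace Vale.Agent.P286.H710

open Vale.Agent.P286.H847 Vale.Agent.P286.H847.GD Vale.Agent.P286.H847.SGD TensorProduct
  Vale.Agent.P286.H44

noncomputable section

variable {A B : Type} [CommRing A] [Algebra ℂ A] [CommRing B] [Algebra ℂ B]

/-- The sign operator. -/
def sgO (A : Type) [CommRing A] [Algebra ℂ A] : Om ℂ A →ₗ[ℂ] Om ℂ A where
  toFun := Om.sg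
  map_add' := map_add _
  map_smul' c x := Om.sg_csmul c x

@[simp] theorem sgO_apply (x : Om ℂ A) : sgO A x = Om.sg x := rfl

/-- The de Rham complex with its sign operator. -/
abbrev OmS (A : Type) [CommRing A] [Algebra ℂ A] : SGD where
  toGD := OmGD A
  sg := sgO A
  sg_sg := Om.sg_sg
  sg_d x := by
    change Om.sg (Om.d x) = - Om.d (Om.sg x)
    rw [Om.d_sg, neg_neg]
  sg_gr m x hx := by
    rcases hx with rfl | ⟨p, rfl, hx⟩
    · simp
    · change Om.sg x = _
      rw [Om.sg_gr hx]
      rcases Nat.even_or_odd p with h | h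
      · rw [h.neg_one_pow, one_mul, Int.negOnePow_even _ (by exact_mod_cast h)]
        simp
      · rw [h.neg_one_pow, Int.negOnePow_odd _ (by exact_mod_cast h)]
        simp

theorem OmS_sup : ⨆ m, (OmGD A).gr m = ⊤ := by
  rw [eq_top_iff]
  intro x _
  have hx : x ∈ ⨆ p, Om.gr ℂ A p := by
    rw [(DirectSum.Decomposition.isInternal (Om.gr ℂ A)).submodule_iSup_eq_top]
    trivial
  refine Submodule.iSup_induction (Om.gr ℂ A) (motive := fun x => x ∈ ⨆ m, (OmGD A).gr m) hx
    (fun p x hx => ?_) (zero_mem _) (fun x y hx hy => Submodule.add_mem _ hx hy)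
  exact Submodule.mem_iSup_of_mem (p : ℤ) (Or.inr ⟨p, rfl, hx⟩)

/-- The projections of the de Rham complex. -/
def OmPrj (A : Type) [CommRing A] [Algebra ℂ A] : Prj (OmGD A) where
  P m := if 0 ≤ m then ((H697.Om.pr ℂ A m.toNat).restrictScalars ℂ) else 0
  mem m x := by
    split_ifs with h
    · refine Or.inr ⟨m.toNat, (Int.toNat_of_nonneg h).symm, ?_⟩
      exact H697.Om.pr_mem _ _
    · exact Or.inl rfl
  eq m x hx := by
    rcases hx with rfl | ⟨p, rfl, hx⟩
    · rw [map_zero]
    · rw [if_pos (Int.natCast_nonneg p)]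
      exact H697.Om.pr_of_mem hx
  ne m n h x hx := by
    rcases hx with rfl | ⟨p, rfl, hx⟩
    · rw [map_zero]
    · split_ifs with h2
      · refine H697.Om.pr_of_ne (q := p) ?_ hx
        intro e
        apply h
        rw [e, Int.toNat_of_nonneg h2]
      · rfl
  sup := OmS_sup

theorem OmS_internal : DirectSum.IsInternal (OmS A).gr := (OmPrj A).internal

/-- The pull-back is compatible with the sign operators. -/
theorem sgC_pb (f : A →ₐ[ℂ] B) : SgC (E := OmS A) (E' := OmS B) (OmGD.pb f).f := Om.pb_sg f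

end

end Vale.Agent.P286.H710
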