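import Vale.Agent.P286.H761.Cosi

/-!
# The total of a functor quasi-isomorphic to the coproduct with the point
-/

namespace Vale.Agent.P286.H710

open CategoryTheory Vale.Agent.P286.Gen Vale.Agent.P286.H295 Vale.Agent.P286.H847
  Vale.Agent.P286.H847.GD Vale.Agent.P286.H761

noncomputable section

theorem gd_hom_ext {M N : GD} {u v : Hom M N} (h : ∀ x, u.f x = v.f x) : u = v := by
  cases u
  cases v
  congr
  exact LinearMap.ext h

theorem qis_congr {M N : GD} {u v : Hom M N} (h : ∀ x, u.f x = v.f x) (hu : Qis u) : Qis v :=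
  gd_hom_ext h ▸ hu

/-- A retraction of a quasi-isomorphism is a quasi-isomorphism. -/
theorem qis_of_retr {M N : GD} {u : Hom M N} {v : Hom N M} (hu : Qis u)
    (h : ∀ x, v.f (u.f x) = x) : Qis v :=
  Qis.of_comp_right (v := v) hu (qis_congr (u := Hom.id M) (v := v.comp u)
    (fun x => (h x).symm) (Qis.id M))

variable {N : ℕ} {Γ : Gps N} [hs : Algebra.Smooth ℂ (Of Γ)]

/-- The map from the total of the values at the coproducts with the point to the value at the
point. -/
def retr (F : GF (Gen.BGObj Γ)) : Hom ((copG F).cs (ptS Γ).co).Tot (F.obj (BPt Γ)) :=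
  CS.fromZero (X := (copG F).cs (ptS Γ).co) (Y := F.obj (BPt Γ)) (F.map (foldPt Γ))

theorem retr_aug (F : GF (Gen.BGObj Γ)) (y : (F.obj (BPt Γ)).V) :
    (retr F).f ((conAug F).tot.f y) = y := by
  change (F.map (foldPt Γ)).f (((conAug F).tot.f y :
    ∀ k, (((copG F).cs (ptS Γ).co).X k).V) 0) = y
  rw [CS.Aug.tot_zero]
  exact F.map_eq_id inr_foldPt y

theorem qis_retr (F : GF (Gen.BGObj Γ)) : Qis (retr F) :=
  qis_of_retr (qis_con F) (retr_aug F)

variable {W F : GF (Gen.BGObj Γ)}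

/-- **The abstract form of (E1).** -/
theorem qis_fromZero (lam : GF.Nat' W (copG F)) (h : ∀ k, Qis (lam.app ((ptS Γ).P k)))
    (p : Hom (W.obj (BPt Γ)) (F.obj (BPt Γ)))
    (hp : ∀ x, p.f x = (F.map (foldPt Γ)).f ((lam.app (BPt Γ)).f x)) :
    Qis (CS.fromZero (X := W.cs (ptS Γ).co) (Y := F.obj (BPt Γ)) p) := by
  have h1 : Qis ((retr F).comp (lam.cs (ptS Γ).co).tot) :=
    Qis.comp (qis_retr F) (lam.qis_tot (ptS Γ).co h)
  refine qis_congr (fun v => ?_) h1
  change (F.map (foldPt Γ)).f (((lam.cs (ptS Γ).co).tot.f v :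
    ∀ k, (((copG F).cs (ptS Γ).co).X k).V) 0) = p.f (v 0)
  rw [CS.Mor.tot_apply]
  exact (hp (v 0)).symm

end

end Vale.Agent.P286.H710
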