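import Vale.Agent.P286.H697.OmF
import Vale.Agent.P286.H710.OmS
import Vale.Agent.P286.H710.E1a

/-!
# The comparison map for the coproduct with the point
-/

namespace Vale.Agent.P286.H710

open CategoryTheory Vale.Agent.P286.Gen Vale.Agent.P286.H295 Vale.Agent.P286.H847
  Vale.Agent.P286.H847.GD Vale.Agent.P286.H847.SGD Vale.Agent.P286.H761 Vale.Agent.P286.H697
  TensorProduct Vale.Agent.P286.H44

noncomputable section

section Act

variable {A B : Type} [CommRing A] [Algebra ℂ A] [CommRing B] [Algebra ℂ B]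

/-- The product of an element of degree `m` of the de Rham algebra and an element of a module. -/
theorem OmM.smul_omg (M : OmM A) {i j m : ℤ} (h : i + j = m) {w : Om ℂ A} {x : M.M.V}
    (hw : w ∈ (OmGD A).gr i) (hx : x ∈ M.M.gr j) : w • x ∈ M.M.gr m := by
  rcases hw with rfl | ⟨p, rfl, hw⟩
  · rw [zero_smul]; exact zero_mem _
  · have := M.smul_gr p j w x hw hx
    rwa [add_comm, h] at this

/-- The linear map `θ ⊗ x ↦ e(θ) x`. -/
def actL (M : OmM A) {V W : Type} [AddCommGroup V] [Module ℂ V] [AddCommGroup W] [Module ℂ W]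
    (e : V →ₗ[ℂ] Om ℂ A) (t : W →ₗ[ℂ] M.M.V) : V ⊗[ℂ] W →ₗ[ℂ] M.M.V :=
  TensorProduct.lift
    { toFun := fun θ =>
        { toFun := fun x => e θ • t x
          map_add' := fun x y => by rw [map_add, smul_add]
          map_smul' := fun c x => by
            rw [map_smul, RingHom.id_apply, OmF.Coch.smul_comm'] }
      map_add' := fun θ θ' => by
        ext x
        change e (θ + θ') • t x = e θ • t x + e θ' • t x
        rw [map_add, add_smul]
      map_smul' := fun c θ => by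
        ext x
        change e (c • θ) • t x = c • (e θ • t x)
        rw [map_smul, smul_assoc] }

theorem actL_tmul (M : OmM A) {V W : Type} [AddCommGroup V] [Module ℂ V] [AddCommGroup W]
    [Module ℂ W] (e : V →ₗ[ℂ] Om ℂ A) (t : W →ₗ[ℂ] M.M.V) (θ : V) (x : W) :
    actL M e t (θ ⊗ₜ[ℂ] x) = e θ • t x := rfl

/-- The morphism `θ ⊗ x ↦ e(θ) t(x)`. -/
def act (M : OmM A) {E : SGD} {K : GD} (e : Hom E.toGD (OmGD A)) (he : SgC (E' := OmS A) e.f)
    (t : Hom K M.M) : Hom (tens E K) M.M where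
  f := actL M e.f t.f
  comm z := by
    change actL M e.f t.f (td E K z) = M.M.d (actL M e.f t.f z)
    induction z using TensorProduct.induction_on with
    | zero => simp
    | tmul θ x =>
      rw [td_tmul, map_add, actL_tmul, actL_tmul, actL_tmul, M.leib, e.comm, t.comm, he]
      rfl
    | add x y hx hy => rw [map_add, map_add, hx, hy, map_add, map_add]
  deg m z hz := by
    have : tgr E.toGD K m ≤ (M.M.gr m).comap (actL M e.f t.f) :=
      tgr_le fun i j x y hij hx hy => OmM.smul_omg M hij (e.deg i x hx) (t.deg j y hy)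
    exact this hz

theorem act_tmul (M : OmM A) {E : SGD} {K : GD} (e : Hom E.toGD (OmGD A))
    (he : SgC (E' := OmS A) e.f) (t : Hom K M.M) (θ : E.V) (x : K.V) :
    (act M e he t).f (θ ⊗ₜ[ℂ] x) = e.f θ • t.f x := rfl

end Act

section Fib

variable {N : ℕ} {Γ : Gps N}

/-- The module at a test object. -/
def fib (F : OmF (BGT Γ)) (X : Gen.BGObj Γ) : OmM X.A.R := F.F X

/-- The transition map. -/
def fibt (F : OmF (BGT Γ)) {X Y : Gen.BGObj Γ} (φ : X ⟶ Y) : Hom (fib F X).M (fib F Y).M := F.t φ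

theorem fibt_smul (F : OmF (BGT Γ)) {X Y : Gen.BGObj Γ} (φ : X ⟶ Y) (w : Om ℂ X.A.R)
    (x : (fib F X).M.V) :
    (fibt F φ).f (w • x) = Om.pb (Gen.BGHom.f φ) w • (fibt F φ).f x := F.t_smul φ w x

/-- The functor with values in graded differential spaces. -/
def gf (F : OmF (BGT Γ)) : GF (Gen.BGObj Γ) where
  obj X := (fib F X).M
  map φ := fibt F φ
  map_id := F.t_id
  map_comp := F.t_comp

end Fib

variable {N : ℕ} {Γ : Gps N} [hs : Algebra.Smooth ℂ (Of Γ)]

/-- The map `Ω(O(Γ)) ⊗ F(X) → F(X ⊔ pt)`. -/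
def kun (F : OmF (BGT Γ)) (X : Gen.BGObj Γ) :
    Hom (tens (OmS (Of Γ)) (fib F X).M) (fib F (cop X)).M :=
  act (fib F (cop X)) (OmGD.pb (cR X)) (sgC_pb (cR X)) (fibt F (inl X))

theorem kun_tmul (F : OmF (BGT Γ)) (X : Gen.BGObj Γ) (θ : Om ℂ (Of Γ)) (x : (fib F X).M.V) :
    (kun F X).f (θ ⊗ₜ[ℂ] x) = Om.pb (cR X) θ • (fibt F (inl X)).f x := rfl

/-- The value at the coproduct with the point is `Ω(O(Γ)) ⊗ F(X)`. -/
def KUN (F : OmF (BGT Γ)) : Prop := ∀ X : Gen.BGObj Γ, Qis (kun F X)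

variable {E : SGD} (e : Hom E.toGD (OmGD (Of Γ))) (he : SgC (E' := OmS (Of Γ)) e.f)

/-- The map `w ⊗ x ↦ e(w) x` to the value at the coproduct with the point. -/
def lam (F : OmF (BGT Γ)) (X : Gen.BGObj Γ) : Hom (tens E (fib F X).M) (fib F (cop X)).M :=
  (kun F X).comp (tmap (E' := OmS (Of Γ)) e he (Hom.id (fib F X).M))

theorem lam_tmul (F : OmF (BGT Γ)) (X : Gen.BGObj Γ) (w : E.V) (x : (fib F X).M.V) :
    (lam e he F X).f (w ⊗ₜ[ℂ] x) = Om.pb (cR X) (e.f w) • (fibt F (inl X)).f x := rfl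

/-- If `e` is a quasi-isomorphism, then so is the map to the value at the coproduct. -/
theorem qis_lam {F : OmF (BGT Γ)} (hF : KUN F) (hE : DirectSum.IsInternal E.gr) (hq : Qis e)
    (X : Gen.BGObj Γ) : Qis (lam e he F X) := by
  have h1 : Qis (tmap (E' := OmS (Of Γ)) e he (Hom.id (fib F X).M)) :=
    qis_tens_left (E' := OmS (Of Γ)) (fib F X).M e he hE OmS_internal hq
  exact Qis.comp (hF X) h1

theorem foldPt_cR : AlgHom.comp (Gen.BGHom.f (foldPt Γ)) (cR (BPt Γ)) =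
    hpt (1 : Gr Γ (BPt Γ).A.R) := by
  refine (dscR_R (A := (BPt Γ).A.R) (B := (BPt Γ).A.R) (Gen.BGHom.f (𝟙 (BPt Γ)))
    ((Gen.BGHom.h (𝟙 (BPt Γ)))⁻¹ * 1)).trans ?_
  congr 1
  exact (congrArg (fun z : Gr Γ (BPt Γ).A.R => z * 1) inv_one).trans (mul_one _)

/-- The composition with the fold at the point. -/
theorem fold_lam (F : OmF (BGT Γ)) (w : E.V) (x : (fib F (BPt Γ)).M.V) :
    (fibt F (foldPt Γ)).f ((lam e he F (BPt Γ)).f (w ⊗ₜ[ℂ] x)) =
      Om.pb (hpt (1 : Gr Γ (BPt Γ).A.R)) (e.f w) • x := by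
  rw [lam_tmul, fibt_smul, Om.pb_pb, foldPt_cR]
  congr 1
  exact (gf F).map_eq_id inl_foldPt x

end

end Vale.Agent.P286.H710
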