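import Vale.Agent.P286.H710.E1K
import Vale.Agent.P286.H761.Gx

/-!
# (E1) for a representation of the group
-/

namespace Vale.Agent.P286.H710

open CategoryTheory Vale.Agent.P286.Gen Vale.Agent.P286.H295 Vale.Agent.P286.H847
  Vale.Agent.P286.H847.GD Vale.Agent.P286.H847.SGD Vale.Agent.P286.H761 Vale.Agent.P286.H697
  Vale.Agent.P286.St Vale.Agent.P286.H353 Vale.Agent.P286.H621 TensorProduct Vale.Agent.P286.H44
  Vale.Agent.P286.H987

noncomputable section

variable {N : ℕ} {Γ : Gps N} [hs : Algebra.Smooth ℂ (Of Γ)] {I : Type} [Fintype I]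
  [DecidableEq I]

/-- **(E1) for a representation.**  The only hypothesis on the group is (E0): the evaluation
`Wk → Om (O(Γ))` at the universal point is a quasi-isomorphism. -/
theorem qis_pi_R (R : Rpn Γ I) (n : ℕ) (hE0 : Qis (R.evU n)) {F : OmF (BGT Γ)} (hF : KUN F) :
    Qis ((gauX n R).pi F) :=
  qis_pi (gauX n R) (R.evU n) (R.sgC_evHom (ug Γ)) (fun F _ _ φ z => H273.lam_Gwk R F φ z)
    (fun w => R.pb_evU_one w) WkM.internal hE0 hF

/-- **(E1) for the de Rham complexes of cartesian complexes.** -/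
theorem hpi_R (R : Rpn Γ I) (n : ℕ) (hE0 : Qis (R.evU n)) (hT : H389.Str (BGT Γ))
    (K : CCx (BGT Γ)) : Qis ((gauX n R).pi (DRF hT (ofCx (cx K)))) :=
  qis_pi_R R n hE0 (kun_ofCx hT K)

end

end Vale.Agent.P286.H710
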