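import Vale.Agent.P286.H710.OmM

/-!
# Contractions, Lie derivatives and degrees of forms with coefficients
-/

namespace Vale.Agent.P286.H710

open KaehlerDifferential TensorProduct

noncomputable section

variable {k A B C' M N P : Type} [CommRing k] [CommRing A] [Algebra k A] [CommRing B] [Algebra k B]
  [CommRing C'] [Algebra k C'] [AddCommGroup M] [Module A M] [AddCommGroup N] [Module B N]
  [AddCommGroup P] [Module C' P]

/-- Multiplication with a form, on forms with coefficients; induction principle. -/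
theorem DR.induction {P : DR k A M → Prop} (zero : P 0) (tmul : ∀ (w : Om k A) (m : M), P (w ⊗ₜ[A] m))
    (add : ∀ x y, P x → P y → P (x + y)) (x : DR k A M) : P x := by
  induction x using TensorProduct.induction_on with
  | zero => exact zero
  | tmul w m => exact tmul w m
  | add x y hx hy => exact add x y hx hy

/-- The contraction with a vector field. -/
def ctM (v : Derivation k A A) : DR k A M →ₗ[A] DR k A M := LinearMap.rTensor M (Om.ct v)

theorem ctM_tmul (v : Derivation k A A) (w : Om k A) (m : M) :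
    ctM v (w ⊗ₜ[A] m) = Om.ct v w ⊗ₜ[A] m := rfl

theorem ctM_smul (v : Derivation k A A) (w : Om k A) (x : DR k A M) :
    ctM v (w • x) = Om.ct v w • x + Om.sg w • ctM v x := by
  induction x using DR.induction with
  | zero => simp
  | tmul u m =>
    rw [smul_tmul', smul_eq_mul, ctM_tmul, ctM_tmul, Om.ct_mul, add_tmul, smul_tmul', smul_tmul',
      smul_eq_mul, smul_eq_mul]
  | add x y hx hy =>
    rw [smul_add, map_add, hx, hy, map_add, smul_add, smul_add]
    abel

theorem ctM_dd_smul (v : Derivation k A A) (a : A) (x : DR k A M) :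
    ctM v ((Om.dd a : Om k A) • x) + (Om.dd a : Om k A) • ctM v x = v a • x := by
  rw [ctM_smul, Om.ct_dd, Om.sg_dd, DR.neg_smul, neg_add_cancel_right, algebraMap_smul]

theorem ctM_ctM (v : Derivation k A A) (x : DR k A M) : ctM v (ctM v x) = 0 := by
  induction x using DR.induction with
  | zero => rw [map_zero, map_zero]
  | tmul w m => rw [ctM_tmul, ctM_tmul, Om.ct_ct, zero_tmul]
  | add x y hx hy => rw [map_add, map_add, hx, hy, add_zero]

theorem ctM_comm (v w : Derivation k A A) (x : DR k A M) :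
    ctM v (ctM w x) = - ctM w (ctM v x) := by
  induction x using DR.induction with
  | zero => simp
  | tmul u m => rw [ctM_tmul, ctM_tmul, Om.ct_comm, neg_tmul, ctM_tmul, ctM_tmul]
  | add x y hx hy => rw [map_add, map_add, hx, hy, map_add, map_add, neg_add]

/-- `ι_v ∇ m = v m`. -/
theorem ctM_nab (b : DB k A) (C : FC k A M) (v : Derivation k A A) (m : M) :
    ctM v (nab b C m) = (1 : Om k A) ⊗ₜ[A] C.act v m := by
  rw [nab_apply, map_sum, C.act_eq b v m, tmul_sum]
  refine Finset.sum_congr rfl fun i _ => ?_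
  rw [ctM_tmul, Om.ct_dd, tmul_smul, smul_tmul', Algebra.algebraMap_eq_smul_one]

/-- The forms of degree `p` with coefficients. -/
def DR.gr (k A M : Type) [CommRing k] [CommRing A] [Algebra k A] [AddCommGroup M] [Module A M]
    (p : ℕ) : Submodule A (DR k A M) :=
  Submodule.span A {x | ∃ w ∈ Om.gr k A p, ∃ m : M, w ⊗ₜ[A] m = x}

theorem DR.tmul_mem {p : ℕ} {w : Om k A} (hw : w ∈ Om.gr k A p) (m : M) :
    w ⊗ₜ[A] m ∈ DR.gr k A M p := Submodule.subset_span ⟨w, hw, m, rfl⟩

theorem DR.one_tmul_mem (m : M) : (1 : Om k A) ⊗ₜ[A] m ∈ DR.gr k A M 0 := by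
  apply DR.tmul_mem
  rw [← map_one (algebraMap A (Om k A))]
  exact Om.alg_mem _

@[elab_as_elim]
theorem DR.gr_ind {p : ℕ} {Q : ∀ x : DR k A M, x ∈ DR.gr k A M p → Prop}
    (zero : Q 0 (Submodule.zero_mem _))
    (tmul : ∀ w (hw : w ∈ Om.gr k A p) m, Q (w ⊗ₜ[A] m) (DR.tmul_mem hw m))
    (add : ∀ x y hx hy, Q x hx → Q y hy → Q (x + y) (add_mem hx hy))
    {x : DR k A M} (hx : x ∈ DR.gr k A M p) : Q x hx := by
  have h : ∀ a : A, Q (a • x) (Submodule.smul_mem _ a hx) := by
    induction hx using Submodule.span_induction with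
    | mem x hx =>
      obtain ⟨w, hw, m, rfl⟩ := hx
      intro a
      exact tmul (a • w) (Submodule.smul_mem _ _ hw) m
    | zero =>
      intro a
      simpa using zero
    | add x y hx' hy' hx hy =>
      intro a
      simpa using add _ _ _ _ (hx a) (hy a)
    | smul c x hx' hx =>
      intro a
      simpa [smul_smul] using hx (a * c)
  simpa using h 1

theorem DR.smul_mem' {p q : ℕ} {w : Om k A} (hw : w ∈ Om.gr k A p) {x : DR k A M}
    (hx : x ∈ DR.gr k A M q) : w • x ∈ DR.gr k A M (p + q) := by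
  induction hx using DR.gr_ind with
  | zero =>
    rw [smul_zero]
    exact Submodule.zero_mem _
  | tmul u hu m =>
    rw [smul_tmul', smul_eq_mul]
    exact DR.tmul_mem (Om.gr_mul hw hu) m
  | add x y _ _ hx hy =>
    rw [smul_add]
    exact add_mem hx hy

theorem ctM_mem (v : Derivation k A A) {p : ℕ} {x : DR k A M} (hx : x ∈ DR.gr k A M (p + 1)) :
    ctM v x ∈ DR.gr k A M p := by
  induction hx using DR.gr_ind with
  | zero =>
    rw [map_zero]
    exact Submodule.zero_mem _
  | tmul u hu m => exact DR.tmul_mem (Om.ct_mem v hu) m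
  | add x y _ _ hx hy =>
    rw [map_add]
    exact add_mem hx hy

theorem ctM_gr_zero (v : Derivation k A A) {x : DR k A M} (hx : x ∈ DR.gr k A M 0) :
    ctM v x = 0 := by
  induction hx using DR.gr_ind with
  | zero => rw [map_zero]
  | tmul u hu m => rw [ctM_tmul, Om.ct_gr_zero v hu, zero_tmul]
  | add x y _ _ hx hy => rw [map_add, hx, hy, add_zero]

theorem nab_mem (b : DB k A) (C : FC k A M) (m : M) : nab b C m ∈ DR.gr k A M 1 := by
  rw [nab_apply]
  exact Submodule.sum_mem _ fun i _ => DR.tmul_mem (Om.dd_mem _) _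

theorem Om.sg_mem {p : ℕ} {w : Om k A} (hw : w ∈ Om.gr k A p) : Om.sg w ∈ Om.gr k A p := by
  rw [Om.sg_gr hw]
  rcases Nat.even_or_odd p with h | h
  · rwa [h.neg_one_pow, one_mul]
  · rw [h.neg_one_pow, neg_one_mul]
    exact neg_mem hw

theorem dR_mem (b : DB k A) (C : FC k A M) {p : ℕ} {x : DR k A M} (hx : x ∈ DR.gr k A M p) :
    dR b C x ∈ DR.gr k A M (p + 1) := by
  induction hx using DR.gr_ind with
  | zero =>
    rw [map_zero]
    exact Submodule.zero_mem _
  | tmul u hu m =>
    rw [dR_tmul]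
    exact add_mem (DR.tmul_mem (Om.d_mem hu) m) (DR.smul_mem' (Om.sg_mem hu) (nab_mem b C m))
  | add x y _ _ hx hy =>
    rw [map_add]
    exact add_mem hx hy

/-- `∑ dx_i ∧ ι_{v_i}` is `p` on forms of degree `p`. -/
theorem sum_dd_ctM (b : DB k A) {p : ℕ} {x : DR k A M} (hx : x ∈ DR.gr k A M p) :
    ∑ i, (Om.dd (b.x i) : Om k A) • ctM (b.v i) x = p • x := by
  induction hx using DR.gr_ind with
  | zero => simp
  | tmul u hu m =>
    have h := Om.sum_dd_ct Finset.univ b.x b.v b.h hu
    have h' : p • (u ⊗ₜ[A] m) = (p • u) ⊗ₜ[A] m := by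
      rw [← Nat.cast_smul_eq_nsmul A, ← Nat.cast_smul_eq_nsmul A, smul_tmul']
    rw [h', ← h, sum_tmul]
    exact Finset.sum_congr rfl fun i _ => by rw [ctM_tmul, smul_tmul', smul_eq_mul]
  | add x y _ _ hx hy =>
    rw [smul_add, ← hx, ← hy, ← Finset.sum_add_distrib]
    exact Finset.sum_congr rfl fun i _ => by rw [map_add, smul_add]

/-- The Lie derivative on forms with coefficients. -/
def lieM (b : DB k A) (C : FC k A M) (v : Derivation k A A) (x : DR k A M) : DR k A M :=
  dR b C (ctM v x) + ctM v (dR b C x)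

theorem lieM_add (b : DB k A) (C : FC k A M) (v : Derivation k A A) (x y : DR k A M) :
    lieM b C v (x + y) = lieM b C v x + lieM b C v y := by
  unfold lieM
  rw [map_add, map_add, map_add, map_add]
  abel

theorem lieM_tmul (b : DB k A) (C : FC k A M) (v : Derivation k A A) (w : Om k A) (m : M) :
    lieM b C v (w ⊗ₜ[A] m) = Om.lie v w ⊗ₜ[A] m + w ⊗ₜ[A] C.act v m := by
  unfold lieM Om.lie
  rw [ctM_tmul, dR_tmul, dR_tmul, map_add, ctM_tmul, ctM_smul, ctM_nab, Om.ct_sg, Om.sg_sg,
    smul_tmul', smul_eq_mul, mul_one, add_tmul, DR.neg_smul]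
  abel

theorem lieM_smul (b : DB k A) (C : FC k A M) (v : Derivation k A A) (w : Om k A) (x : DR k A M) :
    lieM b C v (w • x) = Om.lie v w • x + w • lieM b C v x := by
  unfold lieM Om.lie
  rw [ctM_smul, map_add, dR_smul, dR_smul, dR_smul, map_add, ctM_smul, ctM_smul, Om.d_sg,
    Om.ct_sg, Om.sg_sg, smul_add, add_smul, DR.neg_smul, DR.neg_smul]
  abel

section Functor

variable (f : A →ₐ[k] B) (t : M →+ N) (ht : ∀ (a : A) m, t (a • m) = f a • t m)

theorem pbT_mem {p : ℕ} {x : DR k A M} (hx : x ∈ DR.gr k A M p) :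
    pbT f t ht x ∈ DR.gr k B N p := by
  induction hx using DR.gr_ind with
  | zero =>
    rw [map_zero]
    exact Submodule.zero_mem _
  | tmul u hu m => exact DR.tmul_mem (Om.pb_mem f hu) _
  | add x y _ _ hx hy =>
    rw [map_add]
    exact add_mem hx hy

theorem pbT_id (h : ∀ (a : A) m, AddMonoidHom.id M (a • m) = AlgHom.id k A a • AddMonoidHom.id M m)
    (x : DR k A M) : pbT (AlgHom.id k A) (AddMonoidHom.id M) h x = x := by
  induction x using DR.induction with
  | zero => rw [map_zero]
  | tmul w m => rw [pbT_tmul, Om.pb_id, AddMonoidHom.id_apply]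
  | add x y hx hy => rw [map_add, hx, hy]

theorem pbT_pbT (g : B →ₐ[k] C') (u : N →+ P) (hu : ∀ (a : B) m, u (a • m) = g a • u m)
    (x : DR k A M) : pbT g u hu (pbT f t ht x) =
      pbT (g.comp f) (u.comp t) (fun a m => by
        change u (t (a • m)) = g (f a) • u (t m)
        rw [ht, hu]) x := by
  induction x using DR.induction with
  | zero => rw [map_zero, map_zero, map_zero]
  | tmul w m =>
    rw [pbT_tmul, pbT_tmul, pbT_tmul, Om.pb_pb]
    rfl
  | add x y hx hy => rw [map_add, map_add, hx, hy, map_add]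

theorem pbT_add (t' : M →+ N) (ht' : ∀ (a : A) m, t' (a • m) = f a • t' m)
    (h : ∀ (a : A) m, (t + t') (a • m) = f a • (t + t') m) (x : DR k A M) :
    pbT f (t + t') h x = pbT f t ht x + pbT f t' ht' x := by
  induction x using DR.induction with
  | zero => rw [map_zero, map_zero, map_zero, add_zero]
  | tmul w m =>
    rw [pbT_tmul, pbT_tmul, pbT_tmul, AddMonoidHom.add_apply, tmul_add]
  | add x y hx hy =>
    rw [map_add, hx, hy, map_add, map_add]
    abel

theorem pbT_congr {f' : A →ₐ[k] B} {t' : M →+ N} (ht' : ∀ (a : A) m, t' (a • m) = f' a • t' m)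
    (hf : f = f') (h : ∀ m, t m = t' m) (x : DR k A M) : pbT f t ht x = pbT f' t' ht' x := by
  subst hf
  obtain rfl : t = t' := AddMonoidHom.ext h
  rfl

end Functor

end

end Vale.Agent.P286.H710
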