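import Vale.Agent.P286.H710.OmM2

/-!
# The Künneth isomorphism for differential forms with coefficients
-/

namespace Vale.Agent.P286.H710

open KaehlerDifferential TensorProduct

noncomputable section

variable {k A B M N : Type} [CommRing k] [CommRing A] [Algebra k A] [CommRing B] [Algebra k B]
  [AddCommGroup M] [Module A M] [AddCommGroup N] [Module (A ⊗[k] B) N]

/-- The first inclusion. -/
abbrev iA (k A B : Type) [CommRing k] [CommRing A] [Algebra k A] [CommRing B] [Algebra k B] :
    A →ₐ[k] A ⊗[k] B := Algebra.TensorProduct.includeLeft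

/-- The second inclusion. -/
abbrev iB (k A B : Type) [CommRing k] [CommRing A] [Algebra k A] [CommRing B] [Algebra k B] :
    B →ₐ[k] A ⊗[k] B := Algebra.TensorProduct.includeRight

theorem iA_mul_iB (a : A) (b : B) : iA k A B a * iB k A B b = a ⊗ₜ[k] b := by
  change (a ⊗ₜ[k] (1 : B)) * ((1 : A) ⊗ₜ[k] b) = _
  rw [Algebra.TensorProduct.tmul_mul_tmul, mul_one, one_mul]

/-- Linearity can be checked on the two factors. -/
theorem lin_of {Q Q' : Type} [AddCommGroup Q] [Module (A ⊗[k] B) Q] [AddCommGroup Q']
    [Module (A ⊗[k] B) Q'] (φ : Q →+ Q') (hA : ∀ a q, φ (iA k A B a • q) = iA k A B a • φ q)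
    (hB : ∀ b q, φ (iB k A B b • q) = iB k A B b • φ q) (x : A ⊗[k] B) (q : Q) :
    φ (x • q) = x • φ q := by
  induction x using TensorProduct.induction_on with
  | zero => rw [zero_smul, zero_smul, map_zero]
  | tmul a b => rw [← iA_mul_iB, mul_smul, hA, hB, mul_smul]
  | add x y hx hy => rw [add_smul, map_add, hx, hy, add_smul]

/-- The linear map defined by an additive map which is linear over the two factors. -/
def mkLin {Q Q' : Type} [AddCommGroup Q] [Module (A ⊗[k] B) Q] [AddCommGroup Q']
    [Module (A ⊗[k] B) Q'] (φ : Q →+ Q') (hA : ∀ a q, φ (iA k A B a • q) = iA k A B a • φ q)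
    (hB : ∀ b q, φ (iB k A B b • q) = iB k A B b • φ q) : Q →ₗ[A ⊗[k] B] Q' where
  toFun := φ
  map_add' := map_add φ
  map_smul' := lin_of φ hA hB

/-- The tensor product of the forms on `B` and the forms on `A` with coefficients. -/
def KV (k A B M : Type) [CommRing k] [CommRing A] [Algebra k A] [CommRing B] [Algebra k B]
    [AddCommGroup M] [Module A M] : Type := Om k B ⊗[k] DR k A M

instance : AddCommGroup (KV k A B M) := inferInstanceAs (AddCommGroup (Om k B ⊗[k] DR k A M))

instance : Module k (KV k A B M) := inferInstanceAs (Module k (Om k B ⊗[k] DR k A M))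

/-- The element `w ⊗ y`. -/
def KV.el (w : Om k B) (y : DR k A M) : KV k A B M := w ⊗ₜ[k] y

theorem KV.ind {Q : KV k A B M → Prop} (zero : Q 0) (el : ∀ w y, Q (KV.el w y))
    (add : ∀ x y, Q x → Q y → Q (x + y)) (x : KV k A B M) : Q x := by
  induction x using TensorProduct.induction_on with
  | zero => exact zero
  | tmul w y => exact el w y
  | add x y hx hy => exact add x y hx hy

theorem KV.el_add (w : Om k B) (y y' : DR k A M) :
    (KV.el w (y + y') : KV k A B M) = KV.el w y + KV.el w y' := tmul_add _ _ _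

theorem KV.add_el (w w' : Om k B) (y : DR k A M) :
    (KV.el (w + w') y : KV k A B M) = KV.el w y + KV.el w' y := add_tmul _ _ _

theorem KV.el_zero (w : Om k B) : (KV.el w 0 : KV k A B M) = 0 := tmul_zero _ _

theorem KV.zero_el (y : DR k A M) : (KV.el 0 y : KV k A B M) = 0 := zero_tmul _ _

theorem KV.neg_el (w : Om k B) (y : DR k A M) : (KV.el (-w) y : KV k A B M) = - KV.el w y :=
  neg_tmul _ _

theorem KV.el_neg (w : Om k B) (y : DR k A M) : (KV.el w (-y) : KV k A B M) = - KV.el w y :=
  tmul_neg _ _

theorem KV.el_csmul (c : k) (w : Om k B) (y : DR k A M) :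
    (KV.el w (c • y) : KV k A B M) = c • KV.el w y := tmul_smul _ _ _

theorem KV.csmul_el (c : k) (w : Om k B) (y : DR k A M) :
    (KV.el (c • w) y : KV k A B M) = c • KV.el w y := (smul_tmul' _ _ _).symm

/-- Two `k`-linear operators in the two factors. -/
def KV.op (p : Om k B →ₗ[k] Om k B) (q : DR k A M →ₗ[k] DR k A M) :
    KV k A B M →ₗ[k] KV k A B M := TensorProduct.map p q

theorem KV.op_el (p : Om k B →ₗ[k] Om k B) (q : DR k A M →ₗ[k] DR k A M) (w : Om k B)
    (y : DR k A M) : KV.op p q (KV.el w y : KV k A B M) = KV.el (p w) (q y) := rfl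

/-- The action of `A`. -/
def KV.aA (k A B M : Type) [CommRing k] [CommRing A] [Algebra k A] [CommRing B] [Algebra k B]
    [AddCommGroup M] [Module A M] : A →ₐ[k] Module.End k (KV k A B M) :=
  (Module.End.lTensorAlgHom k (DR k A M) (Om k B)).comp (Algebra.lsmul k k (DR k A M))

theorem KV.aA_el (a : A) (w : Om k B) (y : DR k A M) :
    KV.aA k A B M a (KV.el w y) = KV.el w (a • y) := rfl

/-- The action of the forms on `B`. -/
def KV.aB (k A B M : Type) [CommRing k] [CommRing A] [Algebra k A] [CommRing B] [Algebra k B]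
    [AddCommGroup M] [Module A M] : Om k B →ₐ[k] Module.End k (KV k A B M) :=
  (Module.End.rTensorAlgHom k (Om k B) (DR k A M)).comp (Algebra.lmul k (Om k B))

theorem KV.aB_el (u : Om k B) (w : Om k B) (y : DR k A M) :
    KV.aB k A B M u (KV.el w y) = KV.el (u * w) y := rfl

/-- The action of `B`. -/
def KV.aB' (k A B M : Type) [CommRing k] [CommRing A] [Algebra k A] [CommRing B] [Algebra k B]
    [AddCommGroup M] [Module A M] : B →ₐ[k] Module.End k (KV k A B M) :=
  (KV.aB k A B M).comp (Algebra.ofId B (Om k B) |>.restrictScalars k)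

theorem KV.commute (a : A) (b : B) : Commute (KV.aA k A B M a) (KV.aB' k A B M b) := by
  apply LinearMap.ext
  intro x
  change KV.aA k A B M a (KV.aB k A B M (algebraMap B _ b) x) =
    KV.aB k A B M (algebraMap B _ b) (KV.aA k A B M a x)
  induction x using KV.ind with
  | zero => simp
  | el w y => rfl
  | add x y hx hy => rw [map_add, map_add, hx, hy, map_add, map_add]

/-- The action of `A ⊗ B`. -/
def KV.aT (k A B M : Type) [CommRing k] [CommRing A] [Algebra k A] [CommRing B] [Algebra k B]
    [AddCommGroup M] [Module A M] : A ⊗[k] B →ₐ[k] Module.End k (KV k A B M) :=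
  Algebra.TensorProduct.lift (KV.aA k A B M) (KV.aB' k A B M) KV.commute

instance : Module (A ⊗[k] B) (KV k A B M) := Module.compHom _ (KV.aT k A B M).toRingHom

theorem KV.smul_def (x : A ⊗[k] B) (v : KV k A B M) : x • v = KV.aT k A B M x v := rfl

theorem KV.iA_smul (a : A) (w : Om k B) (y : DR k A M) :
    iA k A B a • (KV.el w y : KV k A B M) = KV.el w (a • y) := by
  rw [KV.smul_def]
  change ((KV.aT k A B M) (a ⊗ₜ[k] (1 : B))) (KV.el w y) = _
  unfold KV.aT
  rw [Algebra.TensorProduct.lift_tmul, map_one, mul_one, KV.aA_el]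

theorem KV.iB_smul (b : B) (w : Om k B) (y : DR k A M) :
    iB k A B b • (KV.el w y : KV k A B M) = KV.el (b • w) y := by
  rw [KV.smul_def]
  change ((KV.aT k A B M) ((1 : A) ⊗ₜ[k] b)) (KV.el w y) = _
  unfold KV.aT
  rw [Algebra.TensorProduct.lift_tmul, map_one, one_mul, Algebra.smul_def]
  rfl

instance : IsScalarTower k (A ⊗[k] B) (KV k A B M) := IsScalarTower.of_algebraMap_smul
  (fun r x => by
    rw [KV.smul_def, AlgHom.commutes]
    rfl)

/-- The endomorphisms of the `A ⊗ B`-module `KV`. -/
abbrev KE (k A B M : Type) [CommRing k] [CommRing A] [Algebra k A] [CommRing B] [Algebra k B]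
    [AddCommGroup M] [Module A M] : Type := Module.End (A ⊗[k] B) (KV k A B M)

/-- Multiplication with a form on `B`. -/
def KV.P (k A B M : Type) [CommRing k] [CommRing A] [Algebra k A] [CommRing B] [Algebra k B]
    [AddCommGroup M] [Module A M] : Om k B →ₗ[k] KE k A B M where
  toFun u := mkLin (KV.aB k A B M u).toAddMonoidHom
    (fun a x => by
      change KV.aB k A B M u (iA k A B a • x) = iA k A B a • KV.aB k A B M u x
      induction x using KV.ind with
      | zero => rw [smul_zero, map_zero, smul_zero]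
      | el w y => rw [KV.iA_smul, KV.aB_el, KV.aB_el, KV.iA_smul]
      | add x y hx hy => rw [smul_add, map_add, hx, hy, map_add, smul_add])
    (fun b x => by
      change KV.aB k A B M u (iB k A B b • x) = iB k A B b • KV.aB k A B M u x
      induction x using KV.ind with
      | zero => rw [smul_zero, map_zero, smul_zero]
      | el w y => rw [KV.iB_smul, KV.aB_el, KV.aB_el, KV.iB_smul, mul_smul_comm]
      | add x y hx hy => rw [smul_add, map_add, hx, hy, map_add, smul_add])
  map_add' u u' := by
    apply LinearMap.ext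
    intro x
    change KV.aB k A B M (u + u') x = KV.aB k A B M u x + KV.aB k A B M u' x
    rw [map_add]
    rfl
  map_smul' c u := by
    apply LinearMap.ext
    intro x
    change KV.aB k A B M (c • u) x = c • KV.aB k A B M u x
    rw [map_smul]
    rfl

theorem KV.P_el (u w : Om k B) (y : DR k A M) :
    KV.P k A B M u (KV.el w y) = KV.el (u * w) y := rfl

/-- The sign. -/
def KV.sgL (k B : Type) [CommRing k] [CommRing B] [Algebra k B] : Om k B →ₗ[k] Om k B :=
  (Om.sg (k := k) (A := B)).toLinearMap.restrictScalars k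

/-- Multiplication with a one-form on `A`. -/
def KV.Q (k A B M : Type) [CommRing k] [CommRing A] [Algebra k A] [CommRing B] [Algebra k B]
    [AddCommGroup M] [Module A M] : Ω[A⁄k] →ₗ[k] KE k A B M where
  toFun m := mkLin (KV.op (KV.sgL k B) (Algebra.lsmul k k (DR k A M)
      (ExteriorAlgebra.ι A m : Om k A))).toAddMonoidHom
    (fun a x => by
      change KV.op _ _ (iA k A B a • x) = iA k A B a • KV.op _ _ x
      induction x using KV.ind with
      | zero => rw [smul_zero, map_zero, smul_zero]
      | el w y =>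
        rw [KV.iA_smul, KV.op_el, KV.op_el, KV.iA_smul]
        congr 1
        exact smul_comm _ _ _
      | add x y hx hy => rw [smul_add, map_add, hx, hy, map_add, smul_add])
    (fun b x => by
      change KV.op _ _ (iB k A B b • x) = iB k A B b • KV.op _ _ x
      induction x using KV.ind with
      | zero => rw [smul_zero, map_zero, smul_zero]
      | el w y =>
        rw [KV.iB_smul, KV.op_el, KV.op_el, KV.iB_smul]
        congr 1
        exact map_smul Om.sg b w
      | add x y hx hy => rw [smul_add, map_add, hx, hy, map_add, smul_add])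
  map_add' m m' := by
    apply LinearMap.ext
    intro x
    change KV.op _ _ x = KV.op _ _ x + KV.op _ _ x
    induction x using KV.ind with
    | zero => simp
    | el w y =>
      rw [KV.op_el, KV.op_el, KV.op_el, ← KV.el_add, map_add, map_add]
      rfl
    | add x y hx hy =>
      rw [(KV.op _ _).map_add x y, (KV.op _ _).map_add x y, (KV.op _ _).map_add x y, hx, hy]
      abel
  map_smul' c m := by
    apply LinearMap.ext
    intro x
    change KV.op _ _ x = c • KV.op _ _ x
    induction x using KV.ind with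
    | zero => simp
    | el w y =>
      rw [KV.op_el, KV.op_el, Om.ι_csmul, map_smul, ← KV.el_csmul]
      rfl
    | add x y hx hy => rw [map_add, map_add, hx, hy, smul_add]

theorem KV.Q_el (m : Ω[A⁄k]) (w : Om k B) (y : DR k A M) :
    KV.Q k A B M m (KV.el w y) = KV.el (Om.sg w) ((ExteriorAlgebra.ι A m : Om k A) • y) := rfl

theorem KV.P_smul (b : B) (u : Om k B) : KV.P k A B M (b • u) = iB k A B b • KV.P k A B M u := by
  apply LinearMap.ext
  intro x
  change KV.P k A B M (b • u) x = iB k A B b • KV.P k A B M u x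
  induction x using KV.ind with
  | zero => simp
  | el w y => rw [KV.P_el, KV.P_el, KV.iB_smul, smul_mul_assoc]
  | add x y hx hy => rw [map_add, map_add, hx, hy, smul_add]

theorem KV.Q_smul (a : A) (m : Ω[A⁄k]) : KV.Q k A B M (a • m) = iA k A B a • KV.Q k A B M m := by
  apply LinearMap.ext
  intro x
  change KV.Q k A B M (a • m) x = iA k A B a • KV.Q k A B M m x
  induction x using KV.ind with
  | zero => simp
  | el w y => rw [KV.Q_el, KV.Q_el, KV.iA_smul, map_smul, smul_assoc]
  | add x y hx hy => rw [map_add, map_add, hx, hy, smul_add]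

theorem KV.iA_csmul (c : k) (a : A) : iA k A B (c • a) = c • iA k A B a := map_smul _ _ _

theorem KV.iB_csmul (c : k) (b : B) : iB k A B (c • b) = c • iB k A B b := map_smul _ _ _

/-- The `k`-linear map `a ⊗ b ↦ a P(db) + b Q(da)`. -/
def KV.delL (k A B M : Type) [CommRing k] [CommRing A] [Algebra k A] [CommRing B] [Algebra k B]
    [AddCommGroup M] [Module A M] : A ⊗[k] B →ₗ[k] KE k A B M :=
  TensorProduct.lift (LinearMap.mk₂ k
      (fun a b => iA k A B a • KV.P k A B M (Om.dd b) + iB k A B b • KV.Q k A B M (D k A a))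
      (fun a a' b => by
        rw [map_add, map_add, map_add, add_smul, smul_add]
        abel)
      (fun c a b => by
        rw [KV.iA_csmul, Derivation.map_smul, map_smul, smul_assoc, smul_add,
          smul_comm (iB k A B b) c])
      (fun a b b' => by
        rw [Om.dd_add, map_add, map_add, add_smul, smul_add]
        abel)
      (fun c a b => by
        rw [KV.iB_csmul, Om.dd_csmul, map_smul, smul_assoc, smul_add,
          smul_comm (iA k A B a) c]))

theorem KV.delL_tmul (a : A) (b : B) : KV.delL k A B M (a ⊗ₜ[k] b) =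
    iA k A B a • KV.P k A B M (Om.dd b) + iB k A B b • KV.Q k A B M (D k A a) := rfl

theorem leib_aux {T E : Type} [CommRing T] [AddCommGroup E] [Module T E] (α α' β β' : T)
    (p p' q q' : E) : (α * α') • (β • p' + β' • p) + (β * β') • (α • q' + α' • q) =
      (α * β) • (α' • p' + β' • q') + (α' * β') • (α • p + β • q) := by module

/-- The derivation `a ⊗ b ↦ a P(db) + b Q(da)`. -/
def KV.del (k A B M : Type) [CommRing k] [CommRing A] [Algebra k A] [CommRing B] [Algebra k B]
    [AddCommGroup M] [Module A M] : Derivation k (A ⊗[k] B) (KE k A B M) :=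
  Derivation.mk' (KV.delL k A B M)
    (fun x y => by
      induction x using TensorProduct.induction_on with
      | zero => simp
      | add x x' hx hx' =>
        rw [add_mul, map_add, hx, hx', map_add, add_smul, smul_add]
        abel
      | tmul a b =>
        induction y using TensorProduct.induction_on with
        | zero => simp
        | add y y' hy hy' =>
          rw [mul_add, map_add, hy, hy', map_add, add_smul, smul_add]
          abel
        | tmul a' b' =>
          rw [Algebra.TensorProduct.tmul_mul_tmul, KV.delL_tmul, KV.delL_tmul, KV.delL_tmul,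
            Om.dd_mul, Derivation.leibniz, map_add, map_add, KV.P_smul, KV.P_smul, KV.Q_smul,
            KV.Q_smul, ← iA_mul_iB, ← iA_mul_iB, map_mul, map_mul]
          exact leib_aux _ _ _ _ _ _ _ _)

theorem KV.del_iA (a : A) : KV.del k A B M (iA k A B a) = KV.Q k A B M (D k A a) := by
  change KV.delL k A B M (a ⊗ₜ[k] 1) = _
  have h : (Om.dd (1 : B) : Om k B) = 0 := by
    have := Om.dd_const (A := B) (1 : k)
    rwa [map_one] at this
  rw [KV.delL_tmul, map_one, one_smul, h, map_zero, smul_zero, zero_add]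

theorem KV.del_iB (b : B) : KV.del k A B M (iB k A B b) = KV.P k A B M (Om.dd b) := by
  change KV.delL k A B M (1 ⊗ₜ[k] b) = _
  rw [KV.delL_tmul, map_one, one_smul, Derivation.map_one_eq_zero, map_zero, smul_zero, add_zero]

/-- The differentials of `A ⊗ B` are generated by those of `A` and `B`. -/
theorem span_D : Submodule.span (A ⊗[k] B) (Set.range (fun a => D k (A ⊗[k] B) (iA k A B a)) ∪
    Set.range (fun b => D k (A ⊗[k] B) (iB k A B b))) = ⊤ := by
  rw [eq_top_iff, ← KaehlerDifferential.span_range_derivation, Submodule.span_le]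
  rintro _ ⟨x, rfl⟩
  induction x using TensorProduct.induction_on with
  | zero =>
    rw [map_zero]
    exact Submodule.zero_mem _
  | tmul a b =>
    rw [← iA_mul_iB, Derivation.leibniz]
    exact add_mem (Submodule.smul_mem _ _ (Submodule.subset_span (Or.inr ⟨b, rfl⟩)))
      (Submodule.smul_mem _ _ (Submodule.subset_span (Or.inl ⟨a, rfl⟩)))
  | add x y hx hy =>
    rw [map_add]
    exact add_mem hx hy

/-- A linear map with anticommuting values on generators has square zero. -/
theorem sq_zero_of_span {T L E : Type} [CommRing T] [AddCommGroup L] [Module T L] [Ring E]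
    [Algebra T E] (f : L →ₗ[T] E) (S : Set L) (hS : Submodule.span T S = ⊤)
    (h : ∀ x ∈ S, ∀ y ∈ S, f x * f y + f y * f x = 0) (h' : ∀ x ∈ S, f x * f x = 0) (m : L) :
    f m * f m = 0 := by
  have h1 : ∀ x ∈ S, ∀ n : L, f x * f n + f n * f x = 0 := by
    intro x hx n
    have hn : n ∈ Submodule.span T S := by rw [hS]; trivial
    induction hn using Submodule.span_induction with
    | mem y hy => exact h x hx y hy
    | zero => simp
    | add a b _ _ ha hb =>
      rw [map_add, mul_add, add_mul]
      have := congrArg₂ (· + ·) ha hb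
      simp only [add_zero] at this
      rw [← this]
      abel
    | smul c a _ ha => rw [map_smul, mul_smul_comm, smul_mul_assoc, ← smul_add, ha, smul_zero]
  have h2 : ∀ m n : L, f m * f n + f n * f m = 0 := by
    intro m n
    have hm : m ∈ Submodule.span T S := by rw [hS]; trivial
    induction hm using Submodule.span_induction with
    | mem y hy => exact h1 y hy n
    | zero => simp
    | add a b _ _ ha hb =>
      rw [map_add, mul_add, add_mul]
      have := congrArg₂ (· + ·) ha hb
      simp only [add_zero] at this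
      rw [← this]
      abel
    | smul c a _ ha => rw [map_smul, mul_smul_comm, smul_mul_assoc, ← smul_add, ha, smul_zero]
  have hm : m ∈ Submodule.span T S := by rw [hS]; trivial
  induction hm using Submodule.span_induction with
  | mem y hy => exact h' y hy
  | zero => simp
  | add a b _ _ ha hb =>
    rw [map_add, mul_add, add_mul, add_mul, ha, hb, zero_add, add_zero, add_comm]
    exact h2 a b
  | smul c a _ ha => rw [map_smul, mul_smul_comm, smul_mul_assoc, ha, smul_zero, smul_zero]

theorem KV.anti_Q (m m' : Ω[A⁄k]) : KV.Q k A B M m * KV.Q k A B M m' +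
    KV.Q k A B M m' * KV.Q k A B M m = 0 := by
  apply LinearMap.ext
  intro x
  change KV.Q k A B M m (KV.Q k A B M m' x) + KV.Q k A B M m' (KV.Q k A B M m x) = 0
  induction x using KV.ind with
  | zero => simp
  | el w y =>
    rw [KV.Q_el, KV.Q_el, KV.Q_el, KV.Q_el, smul_smul, smul_smul, ← KV.el_add, ← add_smul,
      ExteriorAlgebra.ι_add_mul_swap, zero_smul, KV.el_zero]
  | add x y hx hy =>
    rw [map_add, map_add, map_add, map_add, add_add_add_comm, hx, hy, add_zero]

theorem KV.sq_Q (m : Ω[A⁄k]) : KV.Q k A B M m * KV.Q k A B M m = 0 := by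
  apply LinearMap.ext
  intro x
  change KV.Q k A B M m (KV.Q k A B M m x) = 0
  induction x using KV.ind with
  | zero => simp
  | el w y =>
    rw [KV.Q_el, KV.Q_el, smul_smul, ExteriorAlgebra.ι_sq_zero, zero_smul, KV.el_zero]
  | add x y hx hy => rw [map_add, map_add, hx, hy, add_zero]

theorem KV.P_mul (u u' : Om k B) : KV.P k A B M (u * u') = KV.P k A B M u * KV.P k A B M u' := by
  apply LinearMap.ext
  intro x
  change KV.P k A B M (u * u') x = KV.P k A B M u (KV.P k A B M u' x)
  induction x using KV.ind with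
  | zero => simp
  | el w y => rw [KV.P_el, KV.P_el, KV.P_el, mul_assoc]
  | add x y hx hy => rw [map_add, map_add, map_add, hx, hy]

theorem KV.anti_PQ (b : B) (m : Ω[A⁄k]) : KV.P k A B M (Om.dd b) * KV.Q k A B M m +
    KV.Q k A B M m * KV.P k A B M (Om.dd b) = 0 := by
  apply LinearMap.ext
  intro x
  change KV.P k A B M (Om.dd b) (KV.Q k A B M m x) +
    KV.Q k A B M m (KV.P k A B M (Om.dd b) x) = 0
  induction x using KV.ind with
  | zero => simp
  | el w y =>
    rw [KV.Q_el, KV.P_el, KV.P_el, KV.Q_el, map_mul, Om.sg_dd, neg_mul, KV.neg_el, add_neg_cancel]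
  | add x y hx hy =>
    rw [map_add, map_add, map_add, map_add, add_add_add_comm, hx, hy, add_zero]

theorem KV.del_sq (m : Ω[A ⊗[k] B⁄k]) : (KV.del k A B M).liftKaehlerDifferential m *
    (KV.del k A B M).liftKaehlerDifferential m = 0 := by
  have hdd : ∀ b b' : B, (Om.dd b * Om.dd b' + Om.dd b' * Om.dd b : Om k B) = 0 := fun b b' =>
    ExteriorAlgebra.ι_add_mul_swap _ _
  refine sq_zero_of_span _ _ span_D ?_ ?_ m
  · rintro _ (⟨a, rfl⟩ | ⟨b, rfl⟩) _ (⟨a', rfl⟩ | ⟨b', rfl⟩) <;>
      simp only [Derivation.liftKaehlerDifferential_comp_D, KV.del_iA, KV.del_iB]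
    · exact KV.anti_Q _ _
    · rw [add_comm]
      exact KV.anti_PQ _ _
    · exact KV.anti_PQ _ _
    · rw [← KV.P_mul, ← KV.P_mul, ← map_add, hdd, map_zero]
  · rintro _ (⟨a, rfl⟩ | ⟨b, rfl⟩) <;>
      simp only [Derivation.liftKaehlerDifferential_comp_D, KV.del_iA, KV.del_iB]
    · exact KV.sq_Q _
    · rw [← KV.P_mul]
      have : (Om.dd b * Om.dd b : Om k B) = 0 := ExteriorAlgebra.ι_sq_zero _
      rw [this, map_zero]

/-- The action of the forms on `A ⊗ B`. -/
def KV.rho (k A B M : Type) [CommRing k] [CommRing A] [Algebra k A] [CommRing B] [Algebra k B]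
    [AddCommGroup M] [Module A M] : Om k (A ⊗[k] B) →ₐ[A ⊗[k] B] KE k A B M :=
  ExteriorAlgebra.lift _ ⟨(KV.del k A B M).liftKaehlerDifferential, KV.del_sq⟩

theorem KV.rho_dd (x : A ⊗[k] B) : KV.rho k A B M (Om.dd x) = KV.del k A B M x := by
  unfold KV.rho Om.dd
  rw [ExteriorAlgebra.lift_ι_apply, Derivation.liftKaehlerDifferential_comp_D]

theorem KV.rho_alg (x : A ⊗[k] B) (v : KV k A B M) :
    KV.rho k A B M (algebraMap _ _ x) v = x • v := by
  rw [AlgHom.commutes]
  rfl

/-- Induction principle for the forms on `A ⊗ B`. -/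
theorem Om.induction₂ {Q : Om k (A ⊗[k] B) → Prop}
    (alg : ∀ x : A ⊗[k] B, Q (algebraMap (A ⊗[k] B) _ x))
    (dA : ∀ a : A, Q (Om.dd (iA k A B a))) (dB : ∀ b : B, Q (Om.dd (iB k A B b)))
    (mul : ∀ x y, Q x → Q y → Q (x * y)) (add : ∀ x y, Q x → Q y → Q (x + y))
    (x : Om k (A ⊗[k] B)) : Q x := by
  induction x using Om.induction with
  | alg x => exact alg x
  | dd x =>
    induction x using TensorProduct.induction_on with
    | zero =>
      have h : (Om.dd (0 : A ⊗[k] B) : Om k (A ⊗[k] B)) = algebraMap (A ⊗[k] B) _ 0 := by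
        rw [Om.dd, map_zero, map_zero, map_zero]
      rw [h]
      exact alg 0
    | tmul a b =>
      rw [← iA_mul_iB, Om.dd_mul, Algebra.smul_def, Algebra.smul_def]
      exact add _ _ (mul _ _ (alg _) (dB b)) (mul _ _ (alg _) (dA a))
    | add x y hx hy =>
      rw [Om.dd_add]
      exact add _ _ hx hy
  | mul x y hx hy => exact mul _ _ hx hy
  | add x y hx hy => exact add _ _ hx hy

/-- The forms on `B` act by multiplication. -/
theorem KV.rho_iB (w : Om k B) : KV.rho k A B M (Om.pb (iB k A B) w) = KV.P k A B M w := by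
  induction w using Om.induction with
  | alg b =>
    apply LinearMap.ext
    intro v
    rw [Om.pb_alg, KV.rho_alg]
    induction v using KV.ind with
    | zero => simp
    | el w y => rw [KV.iB_smul, KV.P_el, Algebra.smul_def]
    | add x y hx hy => rw [smul_add, map_add, hx, hy]
  | dd b => rw [Om.pb_dd, KV.rho_dd, KV.del_iB]
  | mul x y hx hy => rw [map_mul, map_mul, hx, hy, KV.P_mul]
  | add x y hx hy => rw [map_add, map_add, hx, hy, map_add]

theorem KV.rho_iA (w : Om k A) (y : DR k A M) :
    KV.rho k A B M (Om.pb (iA k A B) w) (KV.el 1 y) = KV.el 1 (w • y) := by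
  induction w using Om.induction generalizing y with
  | alg a => rw [Om.pb_alg, KV.rho_alg, KV.iA_smul, algebraMap_smul]
  | dd a =>
    rw [Om.pb_dd, KV.rho_dd, KV.del_iA, KV.Q_el, map_one]
    rfl
  | mul x z hx hz => rw [map_mul, map_mul, Module.End.mul_apply, hz, hx, mul_smul]
  | add x z hx hz => rw [map_add, map_add, LinearMap.add_apply, hx, hz, add_smul, KV.el_add]

section Map

variable (t : M →+ N) (ht : ∀ (a : A) m, t (a • m) = iA k A B a • t m)

theorem pbT_csmul (c : k) (y : DR k A M) :
    pbT (iA k A B) t ht (c • y) = c • pbT (iA k A B) t ht y := by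
  have h : ∀ y : DR k A M, c • y = (algebraMap A (Om k A) (algebraMap k A c)) • y := by
    intro y
    rw [algebraMap_smul, algebraMap_smul]
  have h2 : ∀ y : DR k (A ⊗[k] B) N, c • y =
      (algebraMap (A ⊗[k] B) (Om k (A ⊗[k] B)) (algebraMap k _ c)) • y := by
    intro y
    rw [algebraMap_smul, algebraMap_smul]
  rw [h, h2, pbT_smul, Om.pb_alg, AlgHom.commutes]

/-- The Künneth map `w ⊗ y ↦ w y`. -/
def KV.kap : KV k A B M →+ DR k (A ⊗[k] B) N :=
  TensorProduct.liftAddHom
    { toFun := fun w =>
        { toFun := fun y => Om.pb (iB k A B) w • pbT (iA k A B) t ht y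
          map_zero' := by rw [map_zero, smul_zero]
          map_add' := fun y y' => by rw [map_add, smul_add] }
      map_zero' := by
        ext y
        change Om.pb (iB k A B) 0 • pbT (iA k A B) t ht y = 0
        rw [map_zero, zero_smul]
      map_add' := fun w w' => by
        ext y
        change Om.pb (iB k A B) (w + w') • pbT (iA k A B) t ht y =
          Om.pb (iB k A B) w • pbT (iA k A B) t ht y + Om.pb (iB k A B) w' • pbT (iA k A B) t ht y
        rw [map_add, add_smul] }
    (fun c w y => by
      change Om.pb (iB k A B) (c • w) • pbT (iA k A B) t ht y =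
        Om.pb (iB k A B) w • pbT (iA k A B) t ht (c • y)
      rw [Om.pb_csmul, pbT_csmul, smul_assoc, smul_comm])

theorem KV.kap_el (w : Om k B) (y : DR k A M) :
    KV.kap t ht (KV.el w y) = Om.pb (iB k A B) w • pbT (iA k A B) t ht y := rfl

/-- The Künneth map is linear over the forms. -/
theorem KV.kap_rho (u : Om k (A ⊗[k] B)) (v : KV k A B M) :
    KV.kap t ht (KV.rho k A B M u v) = u • KV.kap t ht v := by
  induction u using Om.induction₂ generalizing v with
  | alg x =>
    rw [KV.rho_alg, algebraMap_smul]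
    refine lin_of (KV.kap t ht) (fun a q => ?_) (fun b q => ?_) x v
    · induction q using KV.ind with
      | zero => simp
      | el w y =>
        rw [KV.iA_smul, KV.kap_el, KV.kap_el, ← algebraMap_smul (Om k A) a y, pbT_smul,
          Om.pb_alg, algebraMap_smul, smul_comm]
      | add x y hx hy => rw [smul_add, map_add, hx, hy, map_add, smul_add]
    · induction q using KV.ind with
      | zero => simp
      | el w y => rw [KV.iB_smul, KV.kap_el, KV.kap_el, Om.pb_smul, smul_assoc]
      | add x y hx hy => rw [smul_add, map_add, hx, hy, map_add, smul_add]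
  | dA a =>
    rw [KV.rho_dd, KV.del_iA]
    induction v using KV.ind with
    | zero => simp
    | el w y =>
      rw [KV.Q_el, KV.kap_el, KV.kap_el, smul_smul]
      have h1 : (ExteriorAlgebra.ι A (D k A a) : Om k A) = Om.dd a := rfl
      rw [h1, pbT_smul, Om.pb_dd, smul_smul, Om.pb_sg]
      congr 1
      exact (Om.ι_mul _ _).symm
    | add x y hx hy => rw [map_add, map_add, hx, hy, map_add, smul_add]
  | dB b =>
    rw [KV.rho_dd, KV.del_iB]
    induction v using KV.ind with
    | zero => simp
    | el w y => rw [KV.P_el, KV.kap_el, KV.kap_el, map_mul, Om.pb_dd, mul_smul]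
    | add x y hx hy => rw [map_add, map_add, hx, hy, map_add, smul_add]
  | mul x y hx hy => rw [map_mul, Module.End.mul_apply, hx, hy, mul_smul]
  | add x y hx hy => rw [map_add, LinearMap.add_apply, map_add, hx, hy, add_smul]

/-- The map `t : M → N` is a base change along `A → A ⊗ B` (universal property). -/
def IsBC (k A B : Type) {M N : Type} [CommRing k] [CommRing A] [Algebra k A] [CommRing B]
    [Algebra k B] [AddCommGroup M] [Module A M] [AddCommGroup N] [Module (A ⊗[k] B) N]
    (t : M →+ N) : Prop :=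
  ∀ (Q : Type) [AddCommGroup Q] [Module (A ⊗[k] B) Q] (u : M →+ Q),
    (∀ (a : A) m, u (a • m) = iA k A B a • u m) →
    ∃! ν : N →ₗ[A ⊗[k] B] Q, ∀ m, ν (t m) = u m

/-- The inverse of the Künneth map. -/
def KV.lam (ν : N →ₗ[A ⊗[k] B] KV k A B M) : DR k (A ⊗[k] B) N →+ KV k A B M :=
  TensorProduct.liftAddHom
    { toFun := fun u =>
        { toFun := fun n => KV.rho k A B M u (ν n)
          map_zero' := by rw [map_zero, map_zero]
          map_add' := fun n n' => by rw [map_add, map_add] }
      map_zero' := by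
        ext n
        change KV.rho k A B M 0 (ν n) = 0
        rw [map_zero]
        rfl
      map_add' := fun u u' => by
        ext n
        change KV.rho k A B M (u + u') (ν n) = KV.rho k A B M u (ν n) + KV.rho k A B M u' (ν n)
        rw [map_add]
        rfl }
    (fun x u n => by
      change KV.rho k A B M (x • u) (ν n) = KV.rho k A B M u (ν (x • n))
      rw [map_smul, map_smul, map_smul]
      rfl)

theorem KV.lam_tmul (ν : N →ₗ[A ⊗[k] B] KV k A B M) (u : Om k (A ⊗[k] B)) (n : N) :
    KV.lam ν (u ⊗ₜ[A ⊗[k] B] n) = KV.rho k A B M u (ν n) := rfl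

theorem KV.lam_smul (ν : N →ₗ[A ⊗[k] B] KV k A B M) (u : Om k (A ⊗[k] B))
    (x : DR k (A ⊗[k] B) N) : KV.lam ν (u • x) = KV.rho k A B M u (KV.lam ν x) := by
  induction x using DR.induction with
  | zero => simp
  | tmul w n =>
    rw [smul_tmul', smul_eq_mul, KV.lam_tmul, KV.lam_tmul, map_mul, Module.End.mul_apply]
  | add x y hx hy => rw [smul_add, map_add, hx, hy, map_add, map_add]

theorem KV.lam_kap (ν : N →ₗ[A ⊗[k] B] KV k A B M)
    (hν : ∀ m, ν (t m) = KV.el 1 ((1 : Om k A) ⊗ₜ[A] m)) (v : KV k A B M) :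
    KV.lam ν (KV.kap t ht v) = v := by
  induction v using KV.ind with
  | zero => rw [map_zero, map_zero]
  | el w y =>
    rw [KV.kap_el, KV.lam_smul, KV.rho_iB]
    have h : KV.lam ν (pbT (iA k A B) t ht y) = KV.el 1 y := by
      induction y using DR.induction with
      | zero => rw [map_zero, map_zero, KV.el_zero]
      | tmul u m =>
        rw [pbT_tmul, KV.lam_tmul, hν, KV.rho_iA, smul_tmul', smul_eq_mul, mul_one]
      | add x y hx hy => rw [map_add, map_add, hx, hy, KV.el_add]
    rw [h, KV.P_el, mul_one]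
  | add x y hx hy => rw [map_add, map_add, hx, hy]

theorem pbT_one (m : M) : pbT (iA k A B) t ht ((1 : Om k A) ⊗ₜ[A] m) =
    (1 : Om k (A ⊗[k] B)) ⊗ₜ[A ⊗[k] B] t m := by
  rw [pbT_tmul, map_one]

theorem KV.kap_lam (hbc : IsBC k A B t) (ν : N →ₗ[A ⊗[k] B] KV k A B M)
    (hν : ∀ m, ν (t m) = KV.el 1 ((1 : Om k A) ⊗ₜ[A] m)) (x : DR k (A ⊗[k] B) N) :
    KV.kap t ht (KV.lam ν x) = x := by
  have h1 : ∀ n : N, KV.kap t ht (ν n) = (1 : Om k (A ⊗[k] B)) ⊗ₜ[A ⊗[k] B] n := by
    let φ : N →ₗ[A ⊗[k] B] DR k (A ⊗[k] B) N :=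
      { toFun := fun n => KV.kap t ht (ν n)
        map_add' := fun n n' => by rw [map_add, map_add]
        map_smul' := fun x n => by
          rw [map_smul, ← KV.rho_alg, KV.kap_rho, algebraMap_smul, RingHom.id_apply] }
    let ψ : N →ₗ[A ⊗[k] B] DR k (A ⊗[k] B) N := TensorProduct.mk _ _ _ 1
    obtain ⟨χ, _, hχ⟩ := hbc (DR k (A ⊗[k] B) N)
      { toFun := fun m => (1 : Om k (A ⊗[k] B)) ⊗ₜ[A ⊗[k] B] t m
        map_zero' := by rw [map_zero, tmul_zero]
        map_add' := fun m m' => by rw [map_add, tmul_add] }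
      (fun a m => by
        change (1 : Om k (A ⊗[k] B)) ⊗ₜ[A ⊗[k] B] t (a • m) = iA k A B a • _
        rw [ht, tmul_smul]
        rfl)
    have e1 : φ = χ := hχ φ (fun m => by
      change KV.kap t ht (ν (t m)) = (1 : Om k (A ⊗[k] B)) ⊗ₜ[A ⊗[k] B] t m
      rw [hν, KV.kap_el, map_one, one_smul, pbT_one])
    have e2 : ψ = χ := hχ ψ (fun m => rfl)
    intro n
    exact LinearMap.congr_fun (e1.trans e2.symm) n
  induction x using DR.induction with
  | zero => rw [map_zero, map_zero]
  | tmul u n => rw [KV.lam_tmul, KV.kap_rho, h1, smul_tmul', smul_eq_mul, mul_one]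
  | add x y hx hy => rw [map_add, map_add, hx, hy]

/-- The base change property gives the inverse. -/
theorem KV.exists_nu (hbc : IsBC k A B t) : ∃ ν : N →ₗ[A ⊗[k] B] KV k A B M,
    ∀ m, ν (t m) = KV.el 1 ((1 : Om k A) ⊗ₜ[A] m) := by
  obtain ⟨ν, hν, _⟩ := hbc (KV k A B M)
    { toFun := fun m => KV.el 1 ((1 : Om k A) ⊗ₜ[A] m)
      map_zero' := by rw [tmul_zero, KV.el_zero]
      map_add' := fun m m' => by rw [tmul_add, KV.el_add] }
    (fun a m => by
      change KV.el 1 ((1 : Om k A) ⊗ₜ[A] (a • m)) = iA k A B a • KV.el 1 ((1 : Om k A) ⊗ₜ[A] m)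
      rw [KV.iA_smul, tmul_smul])
  exact ⟨ν, hν⟩

/-- **The Künneth isomorphism.** -/
theorem KV.kap_bijective (hbc : IsBC k A B t) : Function.Bijective (KV.kap t ht) := by
  obtain ⟨ν, hν⟩ := KV.exists_nu t hbc
  exact ⟨Function.LeftInverse.injective (KV.lam_kap t ht ν hν),
    Function.RightInverse.surjective (KV.kap_lam t ht hbc ν hν)⟩

end Map

/-- Additive operators in the two factors. -/
def KV.opA (p : Om k B →+ Om k B) (q : DR k A M →+ DR k A M)
    (h : ∀ (c : k) w, p (c • w) = c • p w) (h' : ∀ (c : k) y, q (c • y) = c • q y) :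
    KV k A B M →+ KV k A B M :=
  (TensorProduct.map (⟨⟨p, p.map_add⟩, h⟩ : Om k B →ₗ[k] Om k B)
    (⟨⟨q, q.map_add⟩, h'⟩ : DR k A M →ₗ[k] DR k A M)).toAddMonoidHom

theorem dR_csmul (b : DB k A) (C : FC k A M) (c : k) (y : DR k A M) :
    dR b C (c • y) = c • dR b C y := by
  have h : ∀ y : DR k A M, c • y = (algebraMap A (Om k A) (algebraMap k A c)) • y := by
    intro y
    rw [algebraMap_smul, algebraMap_smul]
  rw [h, h, dR_smul, Om.sg.commutes, Om.d_algebraMap, Om.dd_const, zero_smul, zero_add]

/-- The differential of `Om B ⊗ DR(A, M)`. -/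
def KV.d (k A B M : Type) [CommRing k] [CommRing A] [Algebra k A] [CommRing B] [Algebra k B]
    [AddCommGroup M] [Module A M] (b : DB k A) (C : FC k A M) : KV k A B M →+ KV k A B M :=
  KV.opA Om.dAdd (AddMonoidHom.id _) Om.d_csmul (fun _ _ => rfl) +
    KV.opA (Om.sg (k := k) (A := B) : Om k B →+ Om k B) (dR b C) Om.sg_csmul (dR_csmul b C)

theorem KV.d_el (b : DB k A) (C : FC k A M) (w : Om k B) (y : DR k A M) :
    KV.d k A B M b C (KV.el w y) = KV.el (Om.d w) y + KV.el (Om.sg w) (dR b C y) := rfl

/-- The Künneth map commutes with the differentials. -/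
theorem KV.kap_d (t : M →+ N) (ht : ∀ (a : A) m, t (a • m) = iA k A B a • t m) (b : DB k A)
    (b' : DB k (A ⊗[k] B)) (C : FC k A M) (C' : FC k (A ⊗[k] B) N)
    (hor : Hor (iA k A B) C C' t) (v : KV k A B M) :
    KV.kap t ht (KV.d k A B M b C v) = dR b' C' (KV.kap t ht v) := by
  induction v using KV.ind with
  | zero => simp
  | el w y =>
    rw [KV.d_el, map_add, KV.kap_el, KV.kap_el, KV.kap_el, dR_smul, Om.pb_d, Om.pb_sg,
      pbT_dR (iA k A B) t ht b b' C C' hor]
  | add x y hx hy => rw [map_add, map_add, hx, hy, map_add, map_add]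

end

end Vale.Agent.P286.H710
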