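import Vale.Agent.P286.H710.Kun

/-!
# The pull-back of a module with a flat connection
-/

namespace Vale.Agent.P286.H710

open KaehlerDifferential TensorProduct

noncomputable section

variable {k A T M N : Type} [CommRing k] [CommRing A] [Algebra k A] [CommRing T] [Algebra k T]
  [Algebra A T] [IsScalarTower k A T] [AddCommGroup M] [Module A M] [AddCommGroup N] [Module T N]

/-- A derivation of `T` on `A`, in coordinates. -/
theorem DB.der_map (b : DB k A) (w : Derivation k T T) (a : A) :
    w (algebraMap A T a) = ∑ i, w (algebraMap A T (b.x i)) * algebraMap A T (b.v i a) := by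
  let W : Derivation k A T := w.compAlgebraMap A
  have h := congrArg W.liftKaehlerDifferential (b.h a)
  rw [Derivation.liftKaehlerDifferential_comp_D, map_sum] at h
  refine h.trans (Finset.sum_congr rfl fun i _ => ?_)
  rw [map_smul, Derivation.liftKaehlerDifferential_comp_D, Algebra.smul_def, mul_comm]
  rfl

/-- The connection form of the pull-back. -/
def gam (b : DB k A) (C : FC k A M) (w : Derivation k T T) : M →+ T ⊗[A] M where
  toFun m := ∑ i, w (algebraMap A T (b.x i)) ⊗ₜ[A] C.act (b.v i) m
  map_zero' := Finset.sum_eq_zero fun i _ => by rw [C.act_zero, tmul_zero]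
  map_add' m m' := by
    rw [← Finset.sum_add_distrib]
    exact Finset.sum_congr rfl fun i _ => by rw [C.act_add, tmul_add]

theorem gam_apply (b : DB k A) (C : FC k A M) (w : Derivation k T T) (m : M) :
    gam b C w m = ∑ i, w (algebraMap A T (b.x i)) ⊗ₜ[A] C.act (b.v i) m := rfl

theorem gam_smul (b : DB k A) (C : FC k A M) (w : Derivation k T T) (a : A) (m : M) :
    gam b C w (a • m) = w (algebraMap A T a) ⊗ₜ[A] m + a • gam b C w m := by
  rw [gam_apply, gam_apply, b.der_map w a, sum_tmul, Finset.smul_sum, ← Finset.sum_add_distrib]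
  refine Finset.sum_congr rfl fun i _ => ?_
  rw [C.leibniz, tmul_add, tmul_smul, tmul_smul, smul_tmul', mul_comm, ← Algebra.smul_def]

/-- The action of the vector fields on the pull-back. -/
def pullAct (b : DB k A) (C : FC k A M) (w : Derivation k T T) : T ⊗[A] M →+ T ⊗[A] M :=
  TensorProduct.liftAddHom
    { toFun := fun x =>
        { toFun := fun m => w x ⊗ₜ[A] m + x • gam b C w m
          map_zero' := by rw [tmul_zero, map_zero, smul_zero, add_zero]
          map_add' := fun m m' => by
            rw [tmul_add, map_add, smul_add]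
            abel }
      map_zero' := by
        ext m
        change w 0 ⊗ₜ[A] m + (0 : T) • gam b C w m = 0
        rw [map_zero, zero_tmul, zero_smul, add_zero]
      map_add' := fun x y => by
        ext m
        change w (x + y) ⊗ₜ[A] m + (x + y) • gam b C w m =
          (w x ⊗ₜ[A] m + x • gam b C w m) + (w y ⊗ₜ[A] m + y • gam b C w m)
        rw [map_add, add_tmul, add_smul]
        abel }
    (fun a x m => by
      change w (a • x) ⊗ₜ[A] m + (a • x) • gam b C w m = w x ⊗ₜ[A] (a • m) + x • gam b C w (a • m)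
      rw [gam_smul, Algebra.smul_def, Derivation.leibniz, add_tmul, smul_add, ← Algebra.smul_def,
        smul_tmul', smul_eq_mul, smul_eq_mul, ← Algebra.smul_def, smul_tmul]
      rw [smul_assoc, smul_comm x a]
      abel)

theorem pullAct_tmul (b : DB k A) (C : FC k A M) (w : Derivation k T T) (x : T) (m : M) :
    pullAct b C w (x ⊗ₜ[A] m) = w x ⊗ₜ[A] m + x • gam b C w m := rfl

theorem pullAct_smul (b : DB k A) (C : FC k A M) (w : Derivation k T T) (x : T)
    (n : T ⊗[A] M) : pullAct b C w (x • n) = w x • n + x • pullAct b C w n := by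
  induction n using TensorProduct.induction_on with
  | zero => simp
  | tmul y m =>
    rw [smul_tmul', smul_eq_mul, pullAct_tmul, pullAct_tmul, Derivation.leibniz, add_tmul,
      smul_add, smul_tmul', smul_tmul', smul_eq_mul, smul_eq_mul, smul_eq_mul, mul_smul,
      mul_comm y (w x)]
    abel
  | add n n' h h' =>
    rw [smul_add, map_add, h, h', map_add, smul_add, smul_add]
    abel

theorem gam_add (b : DB k A) (C : FC k A M) (v w : Derivation k T T) (m : M) :
    gam b C (v + w) m = gam b C v m + gam b C w m := by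
  rw [gam_apply, gam_apply, gam_apply, ← Finset.sum_add_distrib]
  exact Finset.sum_congr rfl fun i _ => by rw [← add_tmul]; rfl

theorem gam_smul_der (b : DB k A) (C : FC k A M) (x : T) (w : Derivation k T T) (m : M) :
    gam b C (x • w) m = x • gam b C w m := by
  rw [gam_apply, gam_apply, Finset.smul_sum]
  exact Finset.sum_congr rfl fun i _ => by rw [smul_tmul']; rfl

/-- `v (Γ_w m)`. -/
theorem pullAct_gam (b : DB k A) (C : FC k A M) (v w : Derivation k T T) (m : M) :
    pullAct b C v (gam b C w m) =
      ∑ i, v (w (algebraMap A T (b.x i))) ⊗ₜ[A] C.act (b.v i) m +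
      ∑ i, ∑ j, (w (algebraMap A T (b.x i)) * v (algebraMap A T (b.x j))) ⊗ₜ[A]
        C.act (b.v j) (C.act (b.v i) m) := by
  rw [gam_apply, map_sum, ← Finset.sum_add_distrib]
  refine Finset.sum_congr rfl fun i _ => ?_
  rw [pullAct_tmul, gam_apply, Finset.smul_sum]
  congr 1

/-- The pull-back connection is flat. -/
theorem gam_lie (b : DB k A) (C : FC k A M) (v w : Derivation k T T) (m : M) :
    gam b C ⁅v, w⁆ m = pullAct b C v (gam b C w m) - pullAct b C w (gam b C v m) := by
  rw [pullAct_gam, pullAct_gam, gam_apply]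
  have h1 : ∑ i, ⁅v, w⁆ (algebraMap A T (b.x i)) ⊗ₜ[A] C.act (b.v i) m =
      ∑ i, v (w (algebraMap A T (b.x i))) ⊗ₜ[A] C.act (b.v i) m -
      ∑ i, w (v (algebraMap A T (b.x i))) ⊗ₜ[A] C.act (b.v i) m := by
    rw [← Finset.sum_sub_distrib]
    exact Finset.sum_congr rfl fun i _ => by rw [Derivation.commutator_apply, sub_tmul]
  have h2 : ∑ i, ∑ j, (w (algebraMap A T (b.x i)) * v (algebraMap A T (b.x j))) ⊗ₜ[A]
        C.act (b.v j) (C.act (b.v i) m) -
      ∑ i, ∑ j, (v (algebraMap A T (b.x i)) * w (algebraMap A T (b.x j))) ⊗ₜ[A]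
        C.act (b.v j) (C.act (b.v i) m) =
      ∑ i, ∑ j, (w (algebraMap A T (b.x i)) * v (algebraMap A T (b.x j))) ⊗ₜ[A]
        C.act ⁅b.v j, b.v i⁆ m := by
    have h3 : ∑ i, ∑ j, (v (algebraMap A T (b.x i)) * w (algebraMap A T (b.x j))) ⊗ₜ[A]
        C.act (b.v j) (C.act (b.v i) m) =
      ∑ i, ∑ j, (w (algebraMap A T (b.x i)) * v (algebraMap A T (b.x j))) ⊗ₜ[A]
        C.act (b.v i) (C.act (b.v j) m) := by
      rw [Finset.sum_comm]
      exact Finset.sum_congr rfl fun i _ => Finset.sum_congr rfl fun j _ => by rw [mul_comm]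
    rw [h3, ← Finset.sum_sub_distrib]
    refine Finset.sum_congr rfl fun i _ => ?_
    rw [← Finset.sum_sub_distrib]
    refine Finset.sum_congr rfl fun j _ => ?_
    rw [C.lie_act, tmul_sub]
  have h4 : ∑ i, ∑ j, (w (algebraMap A T (b.x i)) * v (algebraMap A T (b.x j))) ⊗ₜ[A]
        C.act ⁅b.v j, b.v i⁆ m = 0 := by
    have e1 : ∀ i j, (w (algebraMap A T (b.x i)) * v (algebraMap A T (b.x j))) ⊗ₜ[A]
        C.act ⁅b.v j, b.v i⁆ m = ∑ l, (algebraMap A T (⁅b.v j, b.v i⁆ (b.x l)) *
          (w (algebraMap A T (b.x i)) * v (algebraMap A T (b.x j)))) ⊗ₜ[A] C.act (b.v l) m := by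
      intro i j
      rw [C.act_eq b ⁅b.v j, b.v i⁆ m, tmul_sum]
      exact Finset.sum_congr rfl fun l _ => by rw [← smul_tmul, Algebra.smul_def]
    have e2 : ∑ i, ∑ j, (w (algebraMap A T (b.x i)) * v (algebraMap A T (b.x j))) ⊗ₜ[A]
        C.act ⁅b.v j, b.v i⁆ m = ∑ l, (∑ i, ∑ j, algebraMap A T (⁅b.v j, b.v i⁆ (b.x l)) *
          (w (algebraMap A T (b.x i)) * v (algebraMap A T (b.x j)))) ⊗ₜ[A] C.act (b.v l) m := by
      have : ∀ i, ∑ j, (w (algebraMap A T (b.x i)) * v (algebraMap A T (b.x j))) ⊗ₜ[A]
          C.act ⁅b.v j, b.v i⁆ m = ∑ l, (∑ j, algebraMap A T (⁅b.v j, b.v i⁆ (b.x l)) *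
          (w (algebraMap A T (b.x i)) * v (algebraMap A T (b.x j)))) ⊗ₜ[A] C.act (b.v l) m := by
        intro i
        rw [Finset.sum_congr rfl fun j _ => e1 i j, Finset.sum_comm]
        exact Finset.sum_congr rfl fun l _ => (sum_tmul _ _ _).symm
      rw [Finset.sum_congr rfl fun i _ => this i, Finset.sum_comm]
      exact Finset.sum_congr rfl fun l _ => (sum_tmul _ _ _).symm
    rw [e2]
    refine Finset.sum_eq_zero fun l _ => ?_
    -- the coefficient vanishes
    have e3 : ∑ i, ∑ j, algebraMap A T (⁅b.v j, b.v i⁆ (b.x l)) *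
          (w (algebraMap A T (b.x i)) * v (algebraMap A T (b.x j))) =
        ∑ i, w (algebraMap A T (b.x i)) * v (algebraMap A T (b.v i (b.x l))) -
        ∑ i, v (algebraMap A T (b.x i)) * w (algebraMap A T (b.v i (b.x l))) := by
      have e4 : ∀ i, v (algebraMap A T (b.v i (b.x l))) = _ := fun i => b.der_map v (b.v i (b.x l))
      have e5 : ∀ i, w (algebraMap A T (b.v i (b.x l))) = _ := fun i => b.der_map w (b.v i (b.x l))
      have e6 : ∑ i, v (algebraMap A T (b.x i)) * w (algebraMap A T (b.v i (b.x l))) =
          ∑ i, ∑ j, algebraMap A T (b.v i (b.v j (b.x l))) *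
            (w (algebraMap A T (b.x i)) * v (algebraMap A T (b.x j))) := by
        rw [Finset.sum_comm]
        refine Finset.sum_congr rfl fun i _ => ?_
        rw [e5, Finset.mul_sum]
        exact Finset.sum_congr rfl fun j _ => by ring
      have e7 : ∑ i, w (algebraMap A T (b.x i)) * v (algebraMap A T (b.v i (b.x l))) =
          ∑ i, ∑ j, algebraMap A T (b.v j (b.v i (b.x l))) *
            (w (algebraMap A T (b.x i)) * v (algebraMap A T (b.x j))) := by
        refine Finset.sum_congr rfl fun i _ => ?_
        rw [e4, Finset.mul_sum]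
        exact Finset.sum_congr rfl fun j _ => by ring
      rw [e6, e7, ← Finset.sum_sub_distrib]
      refine Finset.sum_congr rfl fun i _ => ?_
      rw [← Finset.sum_sub_distrib]
      refine Finset.sum_congr rfl fun j _ => ?_
      rw [Derivation.commutator_apply, map_sub, sub_mul]
    have e8 : ∀ (v w : Derivation k T T), v (w (algebraMap A T (b.x l))) =
        ∑ i, w (algebraMap A T (b.x i)) * v (algebraMap A T (b.v i (b.x l))) +
        ∑ i, v (w (algebraMap A T (b.x i))) * algebraMap A T (b.v i (b.x l)) := by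
      intro v w
      rw [b.der_map w (b.x l), map_sum, ← Finset.sum_add_distrib]
      refine Finset.sum_congr rfl fun i _ => ?_
      rw [Derivation.leibniz, smul_eq_mul, smul_eq_mul]
      ring
    have e9 : ⁅v, w⁆ (algebraMap A T (b.x l)) = _ := b.der_map ⁅v, w⁆ (b.x l)
    have e10 : ∑ i, ⁅v, w⁆ (algebraMap A T (b.x i)) * algebraMap A T (b.v i (b.x l)) =
        ∑ i, v (w (algebraMap A T (b.x i))) * algebraMap A T (b.v i (b.x l)) -
        ∑ i, w (v (algebraMap A T (b.x i))) * algebraMap A T (b.v i (b.x l)) := by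
      rw [← Finset.sum_sub_distrib]
      exact Finset.sum_congr rfl fun i _ => by rw [Derivation.commutator_apply, sub_mul]
    rw [e10, Derivation.commutator_apply, e8 v w, e8 w v] at e9
    rw [e3]
    have e11 : ∑ i, w (algebraMap A T (b.x i)) * v (algebraMap A T (b.v i (b.x l))) -
        ∑ i, v (algebraMap A T (b.x i)) * w (algebraMap A T (b.v i (b.x l))) = 0 := by
      linear_combination e9
    rw [e11, zero_tmul]
  rw [h1]
  rw [h4] at h2
  rw [add_sub_add_comm, h2, add_zero]

/-- The pull-back of a flat connection. -/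
def FC.pull (T : Type) [CommRing T] [Algebra k T] [Algebra A T] [IsScalarTower k A T]
    (b : DB k A) (C : FC k A M) : FC k T (T ⊗[A] M) where
  act w := pullAct b C w
  act_add w := map_add _
  add_act v w n := by
    induction n using TensorProduct.induction_on with
    | zero => simp
    | tmul x m =>
      rw [pullAct_tmul, pullAct_tmul, pullAct_tmul, gam_add, Derivation.add_apply, add_tmul,
        smul_add]
      abel
    | add n n' h h' =>
      rw [map_add, h, h', map_add, map_add]
      abel
  smul_act x w n := by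
    induction n using TensorProduct.induction_on with
    | zero => simp
    | tmul y m =>
      rw [pullAct_tmul, pullAct_tmul, gam_smul_der, Derivation.smul_apply, smul_add, smul_tmul',
        smul_comm x y]
    | add n n' h h' => rw [map_add, h, h', map_add, smul_add]
  leibniz w x n := pullAct_smul b C w x n
  lie_act v w n := by
    induction n using TensorProduct.induction_on with
    | zero => simp
    | tmul x m =>
      rw [pullAct_tmul, pullAct_tmul, pullAct_tmul, map_add, map_add, pullAct_tmul, pullAct_tmul,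
        pullAct_smul, pullAct_smul, gam_lie, Derivation.commutator_apply, sub_tmul, smul_sub]
      abel
    | add n n' h h' =>
      rw [map_add, h, h', map_add, map_add, map_add, map_add]
      abel

theorem FC.pull_tmul (b : DB k A) (C : FC k A M) (w : Derivation k T T) (x : T) (m : M) :
    (FC.pull T b C).act w (x ⊗ₜ[A] m) = w x ⊗ₜ[A] m + x • gam b C w m := rfl

/-- The homomorphism of algebras. -/
abbrev sA (k A T : Type) [CommRing k] [CommRing A] [Algebra k A] [CommRing T] [Algebra k T]
    [Algebra A T] [IsScalarTower k A T] : A →ₐ[k] T := IsScalarTower.toAlgHom k A T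

/-- The map `m ↦ 1 ⊗ m`. -/
def pullT (A T M : Type) [CommRing A] [CommRing T] [Algebra A T] [AddCommGroup M] [Module A M] :
    M →+ T ⊗[A] M where
  toFun m := 1 ⊗ₜ[A] m
  map_zero' := tmul_zero _ _
  map_add' := tmul_add _

theorem pullT_smul (a : A) (m : M) : pullT A T M (a • m) = algebraMap A T a • pullT A T M m := by
  change (1 : T) ⊗ₜ[A] (a • m) = algebraMap A T a • ((1 : T) ⊗ₜ[A] m)
  rw [tmul_smul, algebraMap_smul]

/-- The map `m ↦ 1 ⊗ m` is horizontal. -/
theorem pullT_hor (b : DB k A) (C : FC k A M) :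
    Hor (sA k A T) C (FC.pull T b C) (pullT A T M) := by
  intro w n c v h m
  change (FC.pull T b C).act w ((1 : T) ⊗ₜ[A] m) = ∑ i, c i • ((1 : T) ⊗ₜ[A] C.act (v i) m)
  rw [FC.pull_tmul, Derivation.map_one_eq_zero, zero_tmul, zero_add, one_smul, gam_apply]
  have h1 : ∀ j, w (algebraMap A T (b.x j)) = ∑ i, c i * algebraMap A T (v i (b.x j)) :=
    fun j => h (b.x j)
  have h2 : ∀ i, c i • ((1 : T) ⊗ₜ[A] C.act (v i) m) =
      ∑ j, (c i * algebraMap A T (v i (b.x j))) ⊗ₜ[A] C.act (b.v j) m := by
    intro i
    rw [smul_tmul', smul_eq_mul, mul_one, C.act_eq b (v i) m, tmul_sum]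
    exact Finset.sum_congr rfl fun j _ => by rw [← smul_tmul, Algebra.smul_def, mul_comm]
  rw [Finset.sum_congr rfl fun i _ => h2 i, Finset.sum_comm]
  refine Finset.sum_congr rfl fun j _ => ?_
  rw [h1 j, sum_tmul]

/-- The linear map defined by a semilinear map. -/
def pullU (t : M →+ N) (ht : ∀ (a : A) m, t (a • m) = algebraMap A T a • t m) :
    T ⊗[A] M →ₗ[T] N where
  toFun := TensorProduct.liftAddHom
    { toFun := fun x => (DistribSMul.toAddMonoidHom N x).comp t
      map_zero' := by
        ext m
        exact zero_smul T (t m)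
      map_add' := fun x y => by
        ext m
        exact add_smul x y (t m) }
    (fun a x m => by
      change (a • x) • t m = x • t (a • m)
      rw [ht, smul_smul, Algebra.smul_def, mul_comm])
  map_add' := map_add _
  map_smul' x n := by
    rw [RingHom.id_apply]
    induction n using TensorProduct.induction_on with
    | zero => simp
    | tmul y m =>
      change (x • y) • t m = x • y • t m
      rw [smul_eq_mul, mul_smul]
    | add n n' h h' => rw [smul_add, map_add, h, h', map_add, smul_add]

theorem pullU_tmul (t : M →+ N) (ht : ∀ (a : A) m, t (a • m) = algebraMap A T a • t m) (x : T)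
    (m : M) : pullU t ht (x ⊗ₜ[A] m) = x • t m := rfl

/-- The linear map defined by a horizontal map is horizontal. -/
theorem pullU_act (t : M →+ N) (ht : ∀ (a : A) m, t (a • m) = algebraMap A T a • t m)
    (b : DB k A) (C : FC k A M) (C' : FC k T N) (hor : Hor (sA k A T) C C' t)
    (w : Derivation k T T) (n : T ⊗[A] M) :
    pullU t ht ((FC.pull T b C).act w n) = C'.act w (pullU t ht n) := by
  induction n using TensorProduct.induction_on with
  | zero => rw [FC.act_zero, map_zero, FC.act_zero]
  | tmul x m =>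
    rw [FC.pull_tmul, map_add, map_smul, pullU_tmul, pullU_tmul, C'.leibniz, gam_apply, map_sum]
    congr 2
    have h := hor w b.n (fun i => w (algebraMap A T (b.x i))) b.v (fun a => b.der_map w a) m
    rw [h]
    exact Finset.sum_congr rfl fun i _ => rfl
  | add n n' h h' => rw [FC.act_add, map_add, h, h', map_add, C'.act_add]

section Tensor

variable {B Q : Type} [CommRing B] [Algebra k B] [AddCommGroup Q] [Module (A ⊗[k] B) Q]

theorem sA_eq : sA k A (A ⊗[k] B) = iA k A B := by
  ext a
  rfl

/-- The pull-back along `A → A ⊗ B` has the universal property of the base change. -/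
theorem isBC_pullT : IsBC k A B (pullT A (A ⊗[k] B) M) := by
  intro Q _ _ u hu
  have hu' : ∀ (a : A) m, u (a • m) = algebraMap A (A ⊗[k] B) a • u m := fun a m => hu a m
  refine ⟨pullU u hu', fun m => ?_, fun ν hν => ?_⟩
  · change pullU u hu' ((1 : A ⊗[k] B) ⊗ₜ[A] m) = u m
    rw [pullU_tmul, one_smul]
  · apply LinearMap.ext
    intro n
    induction n using TensorProduct.induction_on with
    | zero => rw [map_zero, map_zero]
    | tmul x m =>
      have h : x ⊗ₜ[A] m = x • pullT A (A ⊗[k] B) M m := by
        change _ = x • ((1 : A ⊗[k] B) ⊗ₜ[A] m)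
        rw [smul_tmul', smul_eq_mul, mul_one]
      rw [pullU_tmul, h, map_smul, hν]
    | add n n' h h' => rw [map_add, h, h', map_add]

end Tensor

end

end Vale.Agent.P286.H710
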