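import Vale.Agent.P286.H710.FlatC
import Vale.Agent.P286.H847.Brg

/-!
# Cartesian complexes and flat base change
-/

namespace Vale.Agent.P286.H710

open CategoryTheory Vale.Agent.P286.H847 Vale.Agent.P286.H847.GD Vale.Agent.P286.H697
  Vale.Agent.P286.St TensorProduct

noncomputable section

section Conv

variable {A B : Type} [CommRing A] [CommRing B] [Algebra A B]

theorem compHom_eq (f : A →+* B) (hf : ∀ a, algebraMap A B a = f a) :
    Module.compHom B f = (Algebra.toModule : Module A B) := by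
  refine Module.ext' _ _ fun a b => ?_
  change f a * b = a • b
  rw [Algebra.smul_def, hf]

/-- The base change property, with a given module structure. -/
def CvP (m : Module A B) (P : MCx A) {K K' : ℤ → Type}
    [∀ i, AddCommGroup (K' i)] (fn : ∀ i, B → K' i → K' i) (d : ∀ i j, K' i → K' j)
    (t : ∀ i, K i → K' i) (p : ∀ i, P.X i → K i) : Prop :=
  letI := m
  ∃ q' : ∀ i, B ⊗[A] P.X i → K' i, (∀ i x y, q' i (x + y) = q' i x + q' i y) ∧
      (∀ i b x, q' i (b ⊗ₜ[A] x) = fn i b (t i (p i x))) ∧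
      ∀ i j k, i + 1 = j → j + 1 = k →
        St.HIso (fun x => (P.d i j).lTensor B x) (fun x => (P.d j k).lTensor B x)
          (d i j) (d j k) (q' j)

/-- The base change in the standard notation. -/
theorem conv_cx (f : A →+* B) (hf : ∀ a, algebraMap A B a = f a) (P : MCx A) {K K' : ℤ → Type}
    [∀ i, AddCommGroup (K' i)] (fn : ∀ i, B → K' i → K' i) (d : ∀ i j, K' i → K' j)
    (t : ∀ i, K i → K' i) (p : ∀ i, P.X i → K i) (q : ∀ i, BC f P i → K' i)
    (h : IsBaseCh f P fn d t p q) :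
    ∃ q' : ∀ i, B ⊗[A] P.X i → K' i, (∀ i x y, q' i (x + y) = q' i x + q' i y) ∧
      (∀ i b x, q' i (b ⊗ₜ[A] x) = fn i b (t i (p i x))) ∧
      ∀ i j k, i + 1 = j → j + 1 = k →
        St.HIso (fun x => (P.d i j).lTensor B x) (fun x => (P.d j k).lTensor B x)
          (d i j) (d j k) (q' j) := by
  have h1 : CvP (Module.compHom B f) P fn d t p := ⟨q, h.add, h.el, h.hiso⟩
  rw [compHom_eq f hf] at h1
  exact h1

end Conv

variable {T : TSite} (K : GTD T)

/-- The inclusion of the homogeneous sections. -/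
def kv (K : GTD T) (X : T.C) (i : ℤ) : K.toCx.S X i →+ (dgm K X).M.V :=
  (K.val i X).toAddMonoidHom

theorem kv_mem (X : T.C) (i : ℤ) (x : K.toCx.S X i) : kv K X i x ∈ (dgm K X).M.gr i :=
  K.val_mem i X x

theorem kv_inj {X : T.C} {i : ℤ} {x y : K.toCx.S X i} (h : kv K X i x = kv K X i y) : x = y :=
  K.val_inj h

theorem kv_surj {X : T.C} {i : ℤ} {a : (dgm K X).M.V} (ha : a ∈ (dgm K X).M.gr i) :
    ∃ x, kv K X i x = a := ⟨K.el (X := X) a ha, rfl⟩

theorem kv_d {X : T.C} {i j : ℤ} (h : i + 1 = j) (x : K.toCx.S X i) :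
    kv K X j (K.toCx.d X i j x) = (dgm K X).M.d (kv K X i x) := GTD.val_dS K X i j h x

theorem kv_fn {X : T.C} {i : ℤ} (a : T.R X) (x : K.toCx.S X i) :
    kv K X i (K.toCx.fn X i a x) = a • kv K X i x := rfl

theorem kv_tr {X Y : T.C} (φ : X ⟶ Y) {i : ℤ} (x : K.toCx.S X i) :
    kv K Y i (K.toCx.tr φ i x) = (K.tr φ).f (kv K X i x) := rfl

/-- The resolution of the sections over `X` of a cartesian complex. -/
theorem exists_res (hK : Cx.Cart K.toCx) (X : T.C) :
    ∃ (P : MCx (T.R X)) (p : ∀ i, P.X i → K.toCx.S X i) (r : Res (dgm K X) P),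
      (∀ i x, r.p i x = kv K X i (p i x)) ∧
      ∀ (Y : T.C) (φ : X ⟶ Y), ∃ q, IsBaseCh (T.f φ).r P (K.toCx.fn Y) (K.toCx.d Y)
        (K.toCx.tr φ) p q := by
  obtain ⟨P, p, hres, hbc⟩ := hK X
  let pl : ∀ i, P.X i →ₗ[T.R X] (dgm K X).M.V := fun i =>
    { toFun := fun x => kv K X i (p i x)
      map_add' := fun x y => (congrArg (kv K X i) (hres.add i x y)).trans (map_add _ _ _)
      map_smul' := fun a x => congrArg (kv K X i) (hres.hom i a x) }
  refine ⟨P, p, ⟨pl, ?_, ?_, ?_, ?_⟩, fun _ _ => rfl, hbc⟩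
  · intro i x
    exact kv_mem K X i (p i x)
  · intro i j h x
    exact (congrArg (kv K X j) (hres.comm i j x)).trans (kv_d K h (p i x))
  · rintro i j k h h' x hx ⟨a, ha, e⟩
    obtain ⟨a, rfl⟩ := kv_surj K ha
    refine (hres.hiso i j k h h').1 x hx ⟨a, kv_inj K ?_⟩
    exact (kv_d K h a).trans e
  · intro i j k h h' a ha hda
    obtain ⟨a, rfl⟩ := kv_surj K ha
    obtain ⟨x, hx, y', e⟩ := (hres.hiso i j k h h').2 a
      (kv_inj K ((kv_d K h' a).trans (hda.trans (map_zero _).symm)))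
    refine ⟨x, hx, kv K X i y', kv_mem K X i y', ?_⟩
    exact (kv_d K h y').symm.trans ((congrArg (kv K X j) e).trans (map_sub _ _ _))

/-- **Flat base change for cartesian complexes.** -/
theorem qis_pullM_cart (hK : Cx.Cart K.toCx) {X Y : T.C} (φ : X ⟶ Y) [Algebra (T.R X) (T.R Y)]
    [IsScalarTower ℂ (T.R X) (T.R Y)] [Module.Flat (T.R X) (T.R Y)]
    (hφ : ∀ a, algebraMap (T.R X) (T.R Y) a = T.f φ a) (b : DB ℂ (T.R X))
    (t : TrM (sA ℂ (T.R X) (T.R Y)) (dgm K X) (dgm K Y)) (ht : ∀ m, t.u.f m = (K.tr φ).f m) :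
    Qis (pullM b t).u := by
  obtain ⟨P, p, r, hr, hbc⟩ := exists_res K hK X
  obtain ⟨q, hq⟩ := hbc Y φ
  obtain ⟨q', hadd, hel, hiso⟩ := conv_cx (T.f φ).r hφ P _ _ _ _ _ hq
  have hzero : ∀ i, q' i 0 = 0 := by
    intro i
    have := hadd i 0 0
    rwa [add_zero, left_eq_add] at this
  have hval : ∀ j (x : T.R Y ⊗[T.R X] P.X j),
      (pullM b t).u.f (r.pT (T.R Y) j x) = kv K Y j (q' j x) := by
    intro j x
    induction x using TensorProduct.induction_on with
    | zero =>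
      rw [map_zero, hzero, map_zero]
      exact map_zero _
    | tmul c x =>
      rw [hel, r.pT_tmul, pullM_tmul, ht, hr]
      rfl
    | add x y hx hy =>
      rw [map_add, hadd, map_add, ← hx, ← hy]
      exact map_add _ _ _
  refine Res.qis_pullM b r t ?_ ?_
  · rintro i j k h h' x hx ⟨a, ha, e⟩
    obtain ⟨a, rfl⟩ := kv_surj K ha
    refine (hiso i j k h h').1 x hx ⟨a, kv_inj K ?_⟩
    exact (kv_d K h a).trans (e.trans (hval j x))
  · intro i j k h h' a ha hda
    obtain ⟨a, rfl⟩ := kv_surj K ha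
    obtain ⟨x, hx, y', e⟩ := (hiso i j k h h').2 a
      (kv_inj K ((kv_d K h' a).trans (hda.trans (map_zero _).symm)))
    refine ⟨x, hx, kv K Y i y', kv_mem K Y i y', ?_⟩
    exact (kv_d K h y').symm.trans ((congrArg (kv K Y j) e).trans
      ((map_sub _ _ _).trans (congrArg (fun z => kv K Y j a - z) (hval j x).symm)))

end

end Vale.Agent.P286.H710
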