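import Vale.Agent.P286.H710.Lam
import Vale.Agent.P286.H761.Xi

/-!
# (E1): the projection from `Xi F` to the value at the point is a quasi-isomorphism
-/

namespace Vale.Agent.P286.H710

open CategoryTheory Vale.Agent.P286.Gen Vale.Agent.P286.H295 Vale.Agent.P286.H847
  Vale.Agent.P286.H847.GD Vale.Agent.P286.H847.SGD Vale.Agent.P286.H761 Vale.Agent.P286.H697
  TensorProduct Vale.Agent.P286.H44

noncomputable section

variable {N : ℕ} {Γ : Gps N} [hs : Algebra.Smooth ℂ (Of Γ)] {W : SGD} {n : ℕ}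

/-- **(E1).**  If the evaluation `e : W → Om (O(Γ))` is a quasi-isomorphism and `F` has the
Künneth property, then `pi : Xi F → F(pt)` is a quasi-isomorphism. -/
theorem qis_pi (G : GauX Γ W n) (e : Hom W.toGD (OmGD (Of Γ))) (he : SgC (E' := OmS (Of Γ)) e.f)
    (hnat : ∀ (F : OmF (BGT Γ)) {X Y : Gen.BGObj Γ} (φ : X ⟶ Y) (z : W.V ⊗[ℂ] (fib F X).M.V),
      (lam e he F Y).f ((G.map F φ).f z) = (fibt F (copM φ)).f ((lam e he F X).f z))
    (heps : ∀ w : W.V, Om.pb (hpt (1 : Gr Γ (BPt Γ).A.R)) (e.f w) =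
      algebraMap ℂ (Om ℂ (BPt Γ).A.R) (G.eps w))
    (hW : DirectSum.IsInternal W.gr) (hq : Qis e) {F : OmF (BGT Γ)} (hF : KUN F) :
    Qis (G.pi F) := by
  refine qis_fromZero (W := G.wk F) (F := gf F)
    ⟨fun X => lam e he F X, fun φ z => hnat F φ z⟩ (fun k => qis_lam e he hF hW hq _)
    (G.ep (F.F (BPt Γ)).M) ?_
  intro z
  change W.V ⊗[ℂ] (fib F (BPt Γ)).M.V at z
  change (G.ep (fib F (BPt Γ)).M).f z =
    (fibt F (foldPt Γ)).f ((lam e he F (BPt Γ)).f z)
  induction z using TensorProduct.induction_on with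
  | zero => rw [map_zero, map_zero, map_zero]
  | tmul w x =>
    rw [fold_lam, heps, algebraMap_smul]
    rfl
  | add x y hx hy => rw [map_add, hx, hy, map_add, map_add]

end

end Vale.Agent.P286.H710
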