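import Vale.Agent.P286.H710.KunQ
import Vale.Agent.P286.H710.BCh

/-!
# The Künneth property of the de Rham complex of a cartesian complex
-/

namespace Vale.Agent.P286.H710

open CategoryTheory Vale.Agent.P286.Gen Vale.Agent.P286.H295 Vale.Agent.P286.H847
  Vale.Agent.P286.H847.GD Vale.Agent.P286.H847.SGD Vale.Agent.P286.H697 Vale.Agent.P286.St
  TensorProduct

noncomputable section

variable {N : ℕ} {Γ : Gps N} [hs : Algebra.Smooth ℂ (Of Γ)]

/-- The sections over `X`. -/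
def dgX (K : GTD (BGT Γ)) (X : Gen.BGObj Γ) : DGM X.A.R := dgm K X

/-- The sections over the coproduct with the point. -/
def dgC (K : GTD (BGT Γ)) (X : Gen.BGObj Γ) : DGM (X.A.R ⊗[ℂ] Of Γ) := dgm K (cop X)

/-- The transition map of the inclusion. -/
def trC (hT : H389.Str (BGT Γ)) (K : GTD (BGT Γ)) (X : Gen.BGObj Γ) :
    TrM (sA ℂ X.A.R (X.A.R ⊗[ℂ] Of Γ)) (dgX K X) (dgC K X) where
  u := K.tr (inl X)
  smul a m := (K.trans X (cop X) (inl X)).fn a m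
  hor := tA_hor (T := BGT Γ) hT.dl1 K (inl X)

theorem trC_apply (hT : H389.Str (BGT Γ)) (K : GTD (BGT Γ)) (X : Gen.BGObj Γ)
    (m : (dgX K X).M.V) : (trC hT K X).u.f m = (K.tr (inl X)).f m := rfl

/-- The base change to the coproduct is a quasi-isomorphism. -/
theorem qis_trC (hT : H389.Str (BGT Γ)) (K : GTD (BGT Γ)) (hK : Cx.Cart K.toCx)
    (X : Gen.BGObj Γ) (b : DB ℂ X.A.R) : Qis (pullM b (trC hT K X)).u := by
  letI : Algebra ((BGT Γ).R X) ((BGT Γ).R (cop X)) :=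
    inferInstanceAs (Algebra X.A.R (X.A.R ⊗[ℂ] Of Γ))
  haveI : IsScalarTower ℂ ((BGT Γ).R X) ((BGT Γ).R (cop X)) :=
    inferInstanceAs (IsScalarTower ℂ X.A.R (X.A.R ⊗[ℂ] Of Γ))
  haveI : Module.Flat ((BGT Γ).R X) ((BGT Γ).R (cop X)) :=
    inferInstanceAs (Module.Flat X.A.R (X.A.R ⊗[ℂ] Of Γ))
  exact qis_pullM_cart (T := BGT Γ) K hK (X := X) (Y := cop X) (inl X) (fun a => rfl) b
    (trC hT K X) (fun _ => rfl)

theorem pbT_congr_f {A B : Type} [CommRing A] [Algebra ℂ A] [CommRing B] [Algebra ℂ B]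
    {V W : Type} [AddCommGroup V] [Module A V] [AddCommGroup W] [Module B W]
    (f g : A →ₐ[ℂ] B) (h : f = g) (t : V →+ W) (ht : ∀ (a : A) m, t (a • m) = f a • t m)
    (ht' : ∀ (a : A) m, t (a • m) = g a • t m) (x : DR ℂ A V) : pbT f t ht x = pbT g t ht' x := by
  subst h
  rfl

/-- **The Künneth property of the de Rham complex of a cartesian complex.** -/
theorem kun_DRF (hT : H389.Str (BGT Γ)) (K : GTD (BGT Γ)) (hK : Cx.Cart K.toCx)
    (P : ∀ X : Gen.BGObj Γ, DGM.Dec (dgX K X)) : KUN (DRF hT K) := by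
  intro X
  have h1 := qis_kunG (A := X.A.R) (B := Of Γ) (K := dgX K X) (L := dgC K X) (bT (BGT Γ) X)
    (bT (BGT Γ) (cop X)) (trC hT K X) (P X) (P (cop X)) (qis_trC hT K hK X _)
    (kun (DRF hT K) X) ?_
  · exact h1
  · intro θ y
    have e : tL X.A.R (Of Γ) = sA ℂ X.A.R (X.A.R ⊗[ℂ] Of Γ) := AlgHom.ext fun _ => rfl
    have h2 := pbT_congr_f (tL X.A.R (Of Γ)) (sA ℂ X.A.R (X.A.R ⊗[ℂ] Of Γ)) e
      (trC hT K X).a (fun a m => (trC hT K X).a_smul a m) (trC hT K X).a_smul y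
    exact congrArg (fun z : DR ℂ (X.A.R ⊗[ℂ] Of Γ) (dgC K X).M.V =>
      Om.pb (iB ℂ X.A.R (Of Γ)) θ • z) h2

end

end Vale.Agent.P286.H710
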