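import Vale.Agent.P286.H710.E1
import Vale.Agent.P286.H710.KunD
import Vale.Agent.P286.H621.OfD
import Vale.Agent.P286.H652.CartQ

/-!
# (E1) for the de Rham complexes of cartesian complexes
-/

namespace Vale.Agent.P286.H710

open CategoryTheory Vale.Agent.P286.Gen Vale.Agent.P286.H295 Vale.Agent.P286.H847
  Vale.Agent.P286.H847.GD Vale.Agent.P286.H847.SGD Vale.Agent.P286.H761 Vale.Agent.P286.H697
  Vale.Agent.P286.St Vale.Agent.P286.H353 Vale.Agent.P286.H621 TensorProduct Vale.Agent.P286.H44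

noncomputable section

/-- The family defined by a cartesian complex is cartesian. -/
theorem cart_ofCx {T : TSite} (K : CCx T) : Cx.Cart (ofCx (cx K)).toCx :=
  H652.cart_of_qis (K := cx K) (L := GTD.cc (ofCx (cx K))) (isoTo (cx K)).inv
    (qis_iso (isoTo (cx K)).symm) (ObjectProperty.FullSubcategory.property K)

variable {N : ℕ} {Γ : Gps N} [hs : Algebra.Smooth ℂ (Of Γ)] {W : SGD} {n : ℕ}

/-- The Künneth property. -/
theorem kun_ofCx (hT : H389.Str (BGT Γ)) (K : CCx (BGT Γ)) : KUN (DRF hT (ofCx (cx K))) :=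
  kun_DRF hT _ (cart_ofCx K) (fun X => decX (cx K) X)

/-- **(E1) for cartesian complexes.** -/
theorem qis_pi_ofCx (G : GauX Γ W n) (e : Hom W.toGD (OmGD (Of Γ)))
    (he : SgC (E' := OmS (Of Γ)) e.f)
    (hnat : ∀ (F : OmF (BGT Γ)) {X Y : Gen.BGObj Γ} (φ : X ⟶ Y) (z : W.V ⊗[ℂ] (fib F X).M.V),
      (lam e he F Y).f ((G.map F φ).f z) = (fibt F (copM φ)).f ((lam e he F X).f z))
    (heps : ∀ w : W.V, Om.pb (hpt (1 : Gr Γ (BPt Γ).A.R)) (e.f w) =
      algebraMap ℂ (Om ℂ (BPt Γ).A.R) (G.eps w))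
    (hW : DirectSum.IsInternal W.gr) (hq : Qis e) (hT : H389.Str (BGT Γ)) (K : CCx (BGT Γ)) :
    Qis (G.pi (DRF hT (ofCx (cx K)))) :=
  qis_pi G e he hnat heps hW hq (kun_ofCx hT K)

end

end Vale.Agent.P286.H710
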