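import Vale.Agent.P286.H710.PullD
import Vale.Agent.P286.St.Alg

/-!
# Flat base change of a complex of `D`-modules with a resolution
-/

namespace Vale.Agent.P286.H710

open Vale.Agent.P286.H847 Vale.Agent.P286.H847.GD Vale.Agent.P286.H697 TensorProduct

noncomputable section

variable {A : Type} [CommRing A] [Algebra ℂ A] (K : DGM A)

/-- The homogeneous part of degree `j`, as a submodule. -/
def grA (j : ℤ) : Submodule A K.M.V where
  carrier := {x | x ∈ K.M.gr j}
  add_mem' hx hy := Submodule.add_mem _ hx hy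
  zero_mem' := Submodule.zero_mem _
  smul_mem' a x hx := K.gr_smul j a x hx

theorem mem_grA {j : ℤ} {x : K.M.V} : x ∈ grA K j ↔ x ∈ K.M.gr j := Iff.rfl

/-- The differential between the homogeneous parts. -/
def dKA {i j : ℤ} (h : i + 1 = j) : grA K i →ₗ[A] grA K j :=
  K.dA.restrict (p := grA K i) (q := grA K j) (fun _ hx => K.M.dgr' h.symm hx)

theorem dKA_val {i j : ℤ} (h : i + 1 = j) (x : grA K i) : (dKA K h x).1 = K.M.d x.1 := rfl

/-- A quasi-isomorphism from a complex of modules. -/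
structure Res (P : MCx A) where
  p : ∀ i, P.X i →ₗ[A] K.M.V
  mem : ∀ i x, p i x ∈ K.M.gr i
  comm : ∀ i j, i + 1 = j → ∀ x, p j (P.d i j x) = K.M.d (p i x)
  inj : ∀ i j k, i + 1 = j → j + 1 = k → ∀ x : P.X j, P.d j k x = 0 →
    (∃ a ∈ K.M.gr i, K.M.d a = p j x) → ∃ x', P.d i j x' = x
  surj : ∀ i j k, i + 1 = j → j + 1 = k → ∀ a ∈ K.M.gr j, K.M.d a = 0 →
    ∃ x : P.X j, P.d j k x = 0 ∧ ∃ a' ∈ K.M.gr i, K.M.d a' = a - p j x

variable {K} {P : MCx A}

/-- The map to the homogeneous part. -/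
def Res.q (r : Res K P) (i : ℤ) : P.X i →ₗ[A] grA K i :=
  (r.p i).codRestrict (grA K i) (r.mem i)

theorem Res.q_val (r : Res K P) (i : ℤ) (x : P.X i) : (r.q i x).1 = r.p i x := rfl

/-- The differential of the cone. -/
def Res.D (r : Res K P) {i j : ℤ} (h : i + 1 = j) (k : ℤ) :
    grA K i × P.X j →ₗ[A] grA K j × P.X k :=
  ((dKA K h).comp (LinearMap.fst A _ _) + (r.q j).comp (LinearMap.snd A _ _)).prod
    (-((P.d j k).comp (LinearMap.snd A _ _)))

theorem Res.D_apply (r : Res K P) {i j : ℤ} (h : i + 1 = j) (k : ℤ) (x : grA K i × P.X j) :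
    r.D h k x = (dKA K h x.1 + r.q j x.2, -(P.d j k x.2)) := rfl

theorem Res.exact (r : Res K P) {i j k l : ℤ} (h : i + 1 = j) (h' : j + 1 = k) (h'' : k + 1 = l) :
    Function.Exact (r.D h k) (r.D h' l) := by
  intro y
  constructor
  · intro hy
    rw [r.D_apply] at hy
    have h1 : K.M.d y.1.1 + r.p k y.2 = 0 := congrArg Subtype.val (congrArg Prod.fst hy)
    have h2 : P.d k l y.2 = 0 := neg_eq_zero.1 (congrArg Prod.snd hy)
    obtain ⟨x', hx'⟩ := r.inj j k l h' h'' y.2 h2 ⟨-y.1.1, Submodule.neg_mem _ y.1.2, by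
      rw [map_neg, neg_eq_iff_add_eq_zero, h1]⟩
    have h3 : K.M.d (y.1.1 + r.p j x') = 0 := by
      rw [map_add, ← r.comm j k h', hx', h1]
    obtain ⟨z, hz, a', ha', e⟩ := r.surj i j k h h' (y.1.1 + r.p j x')
      (Submodule.add_mem _ y.1.2 (r.mem j x')) h3
    refine ⟨(⟨a', ha'⟩, z - x'), ?_⟩
    rw [r.D_apply]
    refine Prod.ext ?_ ?_
    · apply Subtype.ext
      change K.M.d a' + r.p j (z - x') = y.1.1
      rw [e, map_sub]
      abel
    · change -(P.d j k (z - x')) = y.2
      rw [map_sub, hz, hx', zero_sub, neg_neg]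
  · rintro ⟨x, rfl⟩
    rw [r.D_apply, r.D_apply]
    refine Prod.ext ?_ ?_
    · apply Subtype.ext
      change K.M.d (K.M.d x.1.1 + r.p j x.2) + r.p k (-(P.d j k x.2)) = 0
      rw [map_add, K.M.dd, map_neg, r.comm j k h', zero_add, add_neg_cancel]
    · change -(P.d k l (-(P.d j k x.2))) = 0
      have h4 : P.d k l (P.d j k x.2) = 0 := LinearMap.congr_fun (P.dd j k l) x.2
      rw [map_neg, h4, neg_zero, neg_zero]

section Bc

variable {T : Type} [CommRing T] [Algebra ℂ T] [Algebra A T] [IsScalarTower ℂ A T]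
  [Module.Flat A T]

/-- The inclusion of the homogeneous parts after base change. -/
def iT (T : Type) [CommRing T] [Algebra A T] (K : DGM A) (j : ℤ) :
    T ⊗[A] grA K j →ₗ[T] T ⊗[A] K.M.V := (grA K j).subtype.baseChange T

theorem iT_tmul (j : ℤ) (t : T) (x : grA K j) : iT T K j (t ⊗ₜ[A] x) = t ⊗ₜ[A] x.1 := rfl

theorem iT_inj (j : ℤ) : Function.Injective (iT T K j) :=
  Module.Flat.lTensor_preserves_injective_linearMap (M := T) (grA K j).subtype
    (grA K j).injective_subtype

theorem iT_mem (j : ℤ) (x : T ⊗[A] grA K j) : iT T K j x ∈ pgr T K j := by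
  induction x using TensorProduct.induction_on with
  | zero => rw [map_zero]; exact Submodule.zero_mem _
  | tmul t x => exact tmul_mem_pgr K t x.2
  | add x y hx hy => rw [map_add]; exact Submodule.add_mem _ hx hy

theorem iT_surj {j : ℤ} {z : T ⊗[A] K.M.V} (hz : z ∈ pgr T K j) : ∃ x, iT T K j x = z := by
  refine pgr_ind K (Q := fun z => ∃ x, iT T K j x = z) ?_ ?_ ?_ hz
  · exact ⟨0, map_zero _⟩
  · intro t y hy
    exact ⟨t ⊗ₜ[A] (⟨y, hy⟩ : grA K j), rfl⟩
  · rintro _ _ ⟨x, rfl⟩ ⟨y, rfl⟩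
    exact ⟨x + y, map_add _ _ _⟩

/-- The base change of the map of the resolution. -/
def Res.pT (r : Res K P) (T : Type) [CommRing T] [Algebra A T] (j : ℤ) :
    T ⊗[A] P.X j →ₗ[T] T ⊗[A] K.M.V := (r.p j).baseChange T

theorem Res.pT_tmul (r : Res K P) (j : ℤ) (t : T) (x : P.X j) :
    r.pT T j (t ⊗ₜ[A] x) = t ⊗ₜ[A] r.p j x := rfl

theorem Res.pT_mem (r : Res K P) (j : ℤ) (x : T ⊗[A] P.X j) : r.pT T j x ∈ pgr T K j := by
  induction x using TensorProduct.induction_on with
  | zero => rw [map_zero]; exact Submodule.zero_mem _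
  | tmul t x => exact tmul_mem_pgr K t (r.mem j x)
  | add x y hx hy => rw [map_add]; exact Submodule.add_mem _ hx hy

theorem Res.pT_d (r : Res K P) {i j : ℤ} (h : i + 1 = j) (x : T ⊗[A] P.X i) :
    r.pT T j ((P.d i j).baseChange T x) = pd T K (r.pT T i x) := by
  induction x using TensorProduct.induction_on with
  | zero => rw [map_zero, map_zero, map_zero, map_zero]
  | tmul t x =>
    rw [LinearMap.baseChange_tmul, r.pT_tmul, r.pT_tmul, pd_tmul, r.comm i j h]
  | add x y hx hy => rw [map_add, map_add, hx, hy, map_add, map_add]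

theorem bc_apply {M N : Type} [AddCommGroup M] [Module A M] [AddCommGroup N] [Module A N]
    (f : M →ₗ[A] N) (x : T ⊗[A] M) : LinearMap.lTensor T f x = f.baseChange T x := rfl

theorem bc_comp {M N L : Type} [AddCommGroup M] [Module A M] [AddCommGroup N] [Module A N]
    [AddCommGroup L] [Module A L] (g : N →ₗ[A] L) (f : M →ₗ[A] N) (x : T ⊗[A] M) :
    g.baseChange T (f.baseChange T x) = (g.comp f).baseChange T x := by
  rw [LinearMap.baseChange_comp]
  rfl

/-- Cycles of the base change come from the resolution, up to boundaries. -/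
theorem Res.cycle (r : Res K P) {i j k l : ℤ} (h : i + 1 = j) (h' : j + 1 = k) (h'' : k + 1 = l)
    {z : T ⊗[A] K.M.V} (hz : z ∈ pgr T K j) (hd : pd T K z = 0) :
    ∃ e ∈ pgr T K i, ∃ y : T ⊗[A] P.X j, (P.d j k).baseChange T y = 0 ∧
      z = pd T K e + r.pT T j y := by
  obtain ⟨x, rfl⟩ := iT_surj hz
  -- `x` is a cycle
  have hx : (dKA K h').baseChange T x = 0 := by
    apply iT_inj k
    rw [map_zero, ← hd]
    change (grA K k).subtype.baseChange T _ = K.dA.baseChange T ((grA K j).subtype.baseChange T x)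
    rw [bc_comp, bc_comp]
    rfl
  let c : T ⊗[A] (grA K j × P.X k) := (LinearMap.inl A (grA K j) (P.X k)).baseChange T x
  have hc : (r.D h' l).baseChange T c = 0 := by
    change (r.D h' l).baseChange T ((LinearMap.inl A (grA K j) (P.X k)).baseChange T x) = 0
    rw [bc_comp]
    have e1 : (r.D h' l).comp (LinearMap.inl A (grA K j) (P.X k)) =
        (LinearMap.inl A (grA K k) (P.X l)).comp (dKA K h') := by
      apply LinearMap.ext
      intro a
      rw [LinearMap.comp_apply, LinearMap.comp_apply, r.D_apply]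
      refine Prod.ext ?_ ?_
      · change dKA K h' a + r.q k 0 = dKA K h' a
        rw [map_zero, add_zero]
      · change -(P.d k l 0) = 0
        rw [map_zero, neg_zero]
    rw [e1, ← bc_comp, hx, map_zero]
  have hex := Module.Flat.lTensor_exact T (r.exact h h' h'')
  obtain ⟨e, he⟩ := (hex c).1 hc
  have he' : (r.D h k).baseChange T e = c := he
  let a : T ⊗[A] grA K i := (LinearMap.fst A (grA K i) (P.X j)).baseChange T e
  let y : T ⊗[A] P.X j := (LinearMap.snd A (grA K i) (P.X j)).baseChange T e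
  refine ⟨iT T K i a, iT_mem i a, y, ?_, ?_⟩
  · have e2 : (LinearMap.snd A (grA K j) (P.X k)).comp (r.D h k) =
        -((P.d j k).comp (LinearMap.snd A (grA K i) (P.X j))) := rfl
    have e3 := congrArg ((LinearMap.snd A (grA K j) (P.X k)).baseChange T) he'
    rw [bc_comp, e2] at e3
    have e4 : (LinearMap.snd A (grA K j) (P.X k)).baseChange T c = 0 := by
      change (LinearMap.snd A (grA K j) (P.X k)).baseChange T
        ((LinearMap.inl A (grA K j) (P.X k)).baseChange T x) = 0
      rw [bc_comp]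
      have : (LinearMap.snd A (grA K j) (P.X k)).comp (LinearMap.inl A (grA K j) (P.X k)) = 0 :=
        rfl
      rw [this, LinearMap.baseChange_zero]
      rfl
    rw [e4, LinearMap.baseChange_neg, LinearMap.neg_apply, neg_eq_zero, ← bc_comp] at e3
    exact e3
  · have e2 : ((grA K j).subtype.comp (LinearMap.fst A (grA K j) (P.X k))).comp (r.D h k) =
        K.dA.comp ((grA K i).subtype.comp (LinearMap.fst A (grA K i) (P.X j))) +
          (r.p j).comp (LinearMap.snd A (grA K i) (P.X j)) := rfl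
    have e3 := congrArg (fun c => iT T K j ((LinearMap.fst A (grA K j) (P.X k)).baseChange T c)) he'
    have e4 : (LinearMap.fst A (grA K j) (P.X k)).baseChange T c = x := by
      change (LinearMap.fst A (grA K j) (P.X k)).baseChange T
        ((LinearMap.inl A (grA K j) (P.X k)).baseChange T x) = x
      rw [bc_comp]
      have : (LinearMap.fst A (grA K j) (P.X k)).comp (LinearMap.inl A (grA K j) (P.X k)) =
        LinearMap.id := rfl
      rw [this, LinearMap.baseChange_id]
      rfl
    simp only [e4] at e3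
    rw [← e3]
    change (grA K j).subtype.baseChange T ((LinearMap.fst A (grA K j) (P.X k)).baseChange T
      ((r.D h k).baseChange T e)) = _
    rw [bc_comp, bc_comp, e2, LinearMap.baseChange_add, LinearMap.add_apply, ← bc_comp, ← bc_comp,
      ← bc_comp]
    rfl

variable {L : DGM T} (b : DB ℂ A)

/-- **Flat base change.**  If `T ⊗ P → L` is a quasi-isomorphism, then so is `T ⊗ K → L`. -/
theorem Res.qis_pullM (r : Res K P) (t : TrM (sA ℂ A T) K L)
    (hinj : ∀ i j k, i + 1 = j → j + 1 = k → ∀ x : T ⊗[A] P.X j, (P.d j k).baseChange T x = 0 →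
      (∃ a ∈ L.M.gr i, L.M.d a = (pullM b t).u.f (r.pT T j x)) →
      ∃ x', (P.d i j).baseChange T x' = x)
    (hsurj : ∀ i j k, i + 1 = j → j + 1 = k → ∀ a ∈ L.M.gr j, L.M.d a = 0 →
      ∃ x : T ⊗[A] P.X j, (P.d j k).baseChange T x = 0 ∧
        ∃ a' ∈ L.M.gr i, L.M.d a' = a - (pullM b t).u.f (r.pT T j x)) :
    Qis (pullM b t).u := by
  intro m
  refine ⟨?_, ?_⟩
  · rintro z hz hd ⟨y, hy, e⟩
    have hd' : pd T K z = 0 := hd
    obtain ⟨a, ha, y', hy', e'⟩ := r.cycle (T := T) (i := m - 1) (j := m) (k := m + 1)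
      (l := m + 1 + 1) (by ring) rfl rfl hz hd'
    have e1 : (pullM b t).u.f (r.pT T m y') = L.M.d (y - (pullM b t).u.f a) := by
      have h2 : r.pT T m y' = z - (pullD T b K).M.d a := by
        rw [e']
        change _ = pd T K a + r.pT T m y' - pd T K a
        rw [add_sub_cancel_left]
      have h3 : (pullM b t).u.f ((pullD T b K).M.d a) = L.M.d ((pullM b t).u.f a) :=
        (pullM b t).u.comm a
      rw [map_sub, e, ← h3, ← map_sub]
      exact congrArg _ h2
    obtain ⟨y'', hy''⟩ := hinj (m - 1) m (m + 1) (by ring) rfl y' hy'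
      ⟨_, Submodule.sub_mem _ hy ((pullM b t).u.deg _ _ ha), e1.symm⟩
    refine ⟨a + r.pT T (m - 1) y'', Submodule.add_mem _ ha (r.pT_mem _ _), ?_⟩
    change pd T K (a + r.pT T (m - 1) y'') = z
    rw [map_add, ← r.pT_d (T := T) (i := m - 1) (j := m) (by ring), hy'', e']
  · intro y hy hd
    obtain ⟨x, hx, a', ha', e⟩ := hsurj (m - 1) m (m + 1) (by ring) rfl y hy hd
    refine ⟨r.pT T m x, r.pT_mem _ _, ?_, a', ha', e⟩
    change pd T K (r.pT T m x) = 0
    rw [← r.pT_d (T := T) (i := m) (j := m + 1) rfl, hx, map_zero]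

end Bc

end

end Vale.Agent.P286.H710
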