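import Vale.Agent.P286.H710.PullD
import Vale.Agent.P286.H710.Lam

/-!
# The Künneth quasi-isomorphism for de Rham complexes of complexes of `D`-modules
-/

namespace Vale.Agent.P286.H710

open Vale.Agent.P286.H847 Vale.Agent.P286.H847.GD Vale.Agent.P286.H847.SGD
  Vale.Agent.P286.H697 Vale.Agent.P286.H44 TensorProduct KaehlerDifferential

noncomputable section

/-- A bijective morphism which maps the homogeneous parts onto the homogeneous parts. -/
theorem qis_of_bij {M N : GD} (u : Hom M N) (hi : Function.Injective u.f)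
    (hs : ∀ (m : ℤ), ∀ y ∈ N.gr m, ∃ x ∈ M.gr m, u.f x = y) : Qis u := by
  intro m
  refine ⟨?_, ?_⟩
  · rintro x hx hd ⟨y, hy, e⟩
    obtain ⟨x', hx', rfl⟩ := hs (m - 1) y hy
    refine ⟨x', hx', hi ?_⟩
    rw [u.comm, e]
  · intro y hy hd
    obtain ⟨x, hx, rfl⟩ := hs m y hy
    refine ⟨x, hx, ?_, 0, zero_mem _, by rw [map_zero, sub_self]⟩
    apply hi
    rw [u.comm, hd, map_zero]

variable {A B : Type} [CommRing A] [Algebra ℂ A] [CommRing B] [Algebra ℂ B] (K : DGM A)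

/-- The homogeneous part of degree `m` of `Om B ⊗ DR(A, K)`. -/
def kg (B : Type) [CommRing B] [Algebra ℂ B] (K : DGM A) (m : ℤ) :
    Submodule ℂ (KV ℂ A B K.M.V) :=
  Submodule.span ℂ {z | ∃ (p : ℕ) (j : ℤ) (w : Om ℂ B) (y : DR ℂ A K.M.V),
    (p : ℤ) + j = m ∧ w ∈ Om.gr ℂ B p ∧ y ∈ K.gr j ∧ z = KV.el w y}

theorem el_mem_kg {p : ℕ} {j m : ℤ} (h : (p : ℤ) + j = m) {w : Om ℂ B} (hw : w ∈ Om.gr ℂ B p)
    {y : DR ℂ A K.M.V} (hy : y ∈ K.gr j) : (KV.el w y : KV ℂ A B K.M.V) ∈ kg B K m :=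
  Submodule.subset_span ⟨p, j, w, y, h, hw, hy, rfl⟩

/-- Operators of degree `r`. -/
theorem kg_map {m m' : ℤ} (φ : KV ℂ A B K.M.V → KV ℂ A B K.M.V) (h0 : φ 0 = 0)
    (hadd : ∀ x y, φ (x + y) = φ x + φ y)
    (h : ∀ (p : ℕ) (j : ℤ) (w : Om ℂ B) (y : DR ℂ A K.M.V), (p : ℤ) + j = m →
      w ∈ Om.gr ℂ B p → y ∈ K.gr j → φ (KV.el w y) ∈ kg B K m')
    {z : KV ℂ A B K.M.V} (hz : z ∈ kg B K m) : φ z ∈ kg B K m' := by
  have hc : ∀ c : ℂ, φ (c • z) ∈ kg B K m' := by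
    refine Submodule.span_induction (p := fun z _ => ∀ c : ℂ, φ (c • z) ∈ kg B K m')
      ?_ ?_ ?_ ?_ hz
    · rintro _ ⟨p, j, w, y, hj, hw, hy, rfl⟩ c
      rw [← KV.csmul_el]
      refine h p j _ y hj ?_ hy
      rw [cmul_eq]
      exact Submodule.smul_mem _ _ hw
    · intro c
      rw [smul_zero, h0]
      exact zero_mem _
    · intro x y _ _ hx hy c
      rw [smul_add, hadd]
      exact Submodule.add_mem _ (hx c) (hy c)
    · intro a x _ hx c
      rw [smul_smul]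
      exact hx _
  have := hc 1
  rwa [one_smul] at this

/-- The elements of degree `j` of the de Rham complex are stable under the algebra. -/
theorem DRg_smulA (a : A) {j : ℤ} {y : DR ℂ A K.M.V} (hy : y ∈ K.gr j) : a • y ∈ K.gr j := by
  have h := DRg_smul_gr K 0 j (algebraMap A (Om ℂ A) a) y (Om.alg_mem a) hy
  rw [algebraMap_smul] at h
  simpa using h

theorem kg_smul (x : A ⊗[ℂ] B) {m : ℤ} {z : KV ℂ A B K.M.V} (hz : z ∈ kg B K m) :
    x • z ∈ kg B K m := by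
  induction x using TensorProduct.induction_on with
  | zero => rw [zero_smul]; exact zero_mem _
  | tmul a b =>
    rw [← iA_mul_iB, mul_smul]
    have h1 : iB ℂ A B b • z ∈ kg B K m := by
      refine kg_map K (fun z => iB ℂ A B b • z) (smul_zero _) (fun x y => smul_add _ _ _)
        (fun p j w y hj hw hy => ?_) hz
      rw [KV.iB_smul]
      exact el_mem_kg K hj (Submodule.smul_mem _ _ hw) hy
    refine kg_map K (fun z => iA ℂ A B a • z) (smul_zero _) (fun x y => smul_add _ _ _)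
      (fun p j w y hj hw hy => ?_) h1
    rw [KV.iA_smul]
    exact el_mem_kg K hj hw (DRg_smulA K a hy)
  | add x y hx hy => rw [add_smul]; exact Submodule.add_mem _ hx hy

theorem kg_P {p : ℕ} {u : Om ℂ B} (hu : u ∈ Om.gr ℂ B p) {m : ℤ} {z : KV ℂ A B K.M.V}
    (hz : z ∈ kg B K m) : KV.P ℂ A B K.M.V u z ∈ kg B K (m + p) := by
  refine kg_map K (fun z => KV.P ℂ A B K.M.V u z) (map_zero _) (fun x y => map_add _ _ _)
    (fun q j w y hj hw hy => ?_) hz
  rw [KV.P_el]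
  exact el_mem_kg K (p := p + q) (j := j) (by push_cast; omega) (Om.gr_mul hu hw) hy

theorem kg_Q (a : A) {m : ℤ} {z : KV ℂ A B K.M.V}
    (hz : z ∈ kg B K m) : KV.Q ℂ A B K.M.V (D ℂ A a) z ∈ kg B K (m + 1) := by
  refine kg_map K (fun z => KV.Q ℂ A B K.M.V (D ℂ A a) z) (map_zero _) (fun x y => map_add _ _ _)
    (fun q j w y hj hw hy => ?_) hz
  rw [KV.Q_el]
  refine el_mem_kg K (p := q) (j := j + 1) (by omega) (Om.sg_mem hw) ?_
  have h := DRg_smul_gr K 1 j (ExteriorAlgebra.ι A (D ℂ A a) : Om ℂ A) y (Om.ι_mem _) hy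
  simpa using h

theorem kg_del (x : A ⊗[ℂ] B) {m : ℤ} {z : KV ℂ A B K.M.V}
    (hz : z ∈ kg B K m) : KV.del ℂ A B K.M.V x z ∈ kg B K (m + 1) := by
  induction x using TensorProduct.induction_on with
  | zero => rw [map_zero]; exact zero_mem _
  | tmul a b =>
    change (iA ℂ A B a • KV.P ℂ A B K.M.V (Om.dd b) +
      iB ℂ A B b • KV.Q ℂ A B K.M.V (D ℂ A a)) z ∈ _
    rw [LinearMap.add_apply, LinearMap.smul_apply, LinearMap.smul_apply]
    refine Submodule.add_mem _ (kg_smul K _ ?_) (kg_smul K _ (kg_Q K a hz))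
    have := kg_P K (p := 1) (Om.dd_mem b) hz
    simpa using this
  | add x y hx hy => rw [map_add, LinearMap.add_apply]; exact Submodule.add_mem _ hx hy

theorem kg_rho {p : ℕ} {u : Om ℂ (A ⊗[ℂ] B)} (hu : u ∈ Om.gr ℂ (A ⊗[ℂ] B) p) {m : ℤ}
    {z : KV ℂ A B K.M.V} (hz : z ∈ kg B K m) :
    KV.rho ℂ A B K.M.V u z ∈ kg B K (m + p) := by
  refine Om.gr_ind (P := fun p u => KV.rho ℂ A B K.M.V u z ∈ kg B K (m + p)) ?_ ?_ ?_ ?_ hu
  · intro a
    rw [KV.rho_alg]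
    simpa using kg_smul K a hz
  · intro p b x _ hx
    rw [map_mul, Module.End.mul_apply, KV.rho_dd]
    have := kg_del K b hx
    rwa [show m + (p : ℤ) + 1 = m + ((p + 1 : ℕ) : ℤ) by push_cast; ring] at this
  · intro p a x _ hx
    rw [map_smul, LinearMap.smul_apply]
    exact kg_smul K a hx
  · intro p x y _ _ hx hy
    rw [map_add, LinearMap.add_apply]
    exact Submodule.add_mem _ hx hy

variable (b : DB ℂ A)

/-- The Künneth map hits the homogeneous parts. -/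
theorem kap_surj (m : ℤ) (y : DR ℂ (A ⊗[ℂ] B) (A ⊗[ℂ] B ⊗[A] K.M.V))
    (hy : y ∈ (pullD (A ⊗[ℂ] B) b K).gr m) :
    ∃ z ∈ kg B K m, KV.kap (pullT A (A ⊗[ℂ] B) K.M.V) (fun a m => pullT_smul a m) z = y := by
  obtain ⟨ν, hν⟩ := KV.exists_nu (pullT A (A ⊗[ℂ] B) K.M.V) isBC_pullT
  have hνg : ∀ (i : ℤ) (n : A ⊗[ℂ] B ⊗[A] K.M.V), n ∈ pgr (A ⊗[ℂ] B) K i → ν n ∈ kg B K i := by
    intro i n hn
    refine pgr_ind K (Q := fun n => ν n ∈ kg B K i) ?_ ?_ ?_ hn
    · rw [map_zero]; exact zero_mem _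
    · intro x m hm
      have e : x ⊗ₜ[A] m = x • pullT A (A ⊗[ℂ] B) K.M.V m := by
        change _ = x • ((1 : A ⊗[ℂ] B) ⊗ₜ[A] m)
        rw [smul_tmul', smul_eq_mul, mul_one]
      rw [e, map_smul, hν]
      refine kg_smul K x (el_mem_kg K (p := 0) (j := i) (by simp) ?_ ?_)
      · have := Om.alg_mem (k := ℂ) (1 : B)
        rwa [map_one] at this
      · refine K.tmul_mem (p := 0) (i := i) (by simp) ?_ hm
        have := Om.alg_mem (k := ℂ) (1 : A)
        rwa [map_one] at this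
    · intro x y hx hy
      rw [map_add]; exact Submodule.add_mem _ hx hy
  refine ⟨KV.lam ν y, ?_, KV.kap_lam _ _ isBC_pullT ν hν y⟩
  induction hy using (pullD (A ⊗[ℂ] B) b K).gr_ind with
  | zero =>
    have e : KV.lam ν (0 : DR ℂ (A ⊗[ℂ] B) (A ⊗[ℂ] B ⊗[A] K.M.V)) = 0 := map_zero _
    exact (congrArg (fun z => z ∈ kg B K m) e).mpr (zero_mem _)
  | tmul p i h w hw x hx =>
    have e : KV.lam ν (w ⊗ₜ[A ⊗[ℂ] B] x) = KV.rho ℂ A B K.M.V w (ν x) := KV.lam_tmul ν w x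
    have h2 := kg_rho K hw (hνg i x hx)
    rw [add_comm, h] at h2
    exact (congrArg (fun z => z ∈ kg B K m) e).mpr h2
  | add x y _ _ hx hy =>
    have e : KV.lam ν ((show DR ℂ (A ⊗[ℂ] B) (A ⊗[ℂ] B ⊗[A] K.M.V) from x) +
        (show DR ℂ (A ⊗[ℂ] B) (A ⊗[ℂ] B ⊗[A] K.M.V) from y)) = KV.lam ν x + KV.lam ν y :=
      map_add _ _ _
    exact (congrArg (fun z => z ∈ kg B K m) e).mpr (Submodule.add_mem _ hx hy)

/-- The homogeneous parts in the two notations. -/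
theorem kg_le (m : ℤ) (z : KV ℂ A B K.M.V) (hz : z ∈ kg B K m) :
    z ∈ (tens (OmS B) (DGM.DRg b K)).gr m := by
  have : kg B K m ≤ tgr (OmS B).toGD (DGM.DRg b K) m := by
    refine Submodule.span_le.2 ?_
    rintro _ ⟨p, j, w, y, h, hw, hy, rfl⟩
    exact SGD.tmul_mem (E := (OmS B).toGD) (F := DGM.DRg b K) h (Or.inr ⟨p, rfl, hw⟩) hy
  exact this hz

variable {K} {L : DGM (A ⊗[ℂ] B)}

/-- **The Künneth quasi-isomorphism.** -/
theorem qis_kunG (b' : DB ℂ (A ⊗[ℂ] B)) (t : TrM (sA ℂ A (A ⊗[ℂ] B)) K L)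
    (P : DGM.Dec K) (Q : DGM.Dec L) (hq : Qis (pullM b t).u)
    (κ : Hom (tens (OmS B) (DGM.DRg b K)) (DGM.DRg b' L))
    (hκ : ∀ (θ : Om ℂ B) (y : DR ℂ A K.M.V),
      κ.f (θ ⊗ₜ[ℂ] y) = Om.pb (iB ℂ A B) θ • pbT (sA ℂ A (A ⊗[ℂ] B)) t.a t.a_smul y) :
    Qis κ := by
  let κ₀ : Hom (tens (OmS B) (DGM.DRg b K)) (DGM.DRg b' (pullD (A ⊗[ℂ] B) b K)) :=
    act (drO b' (pullD (A ⊗[ℂ] B) b K)) (OmGD.pb (iB ℂ A B)) (sgC_pb (iB ℂ A B))
      ((pullI b K).dr b b')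
  have h0 : ∀ z : KV ℂ A B K.M.V,
      κ₀.f z = KV.kap (pullT A (A ⊗[ℂ] B) K.M.V) (fun a m => pullT_smul a m) z := by
    intro z
    induction z using KV.ind with
    | zero => exact (map_zero κ₀.f).trans (map_zero _).symm
    | el w y => rfl
    | add x y hx hy =>
      exact (map_add κ₀.f x y).trans ((congrArg₂ (· + ·) hx hy).trans (map_add _ x y).symm)
  have h1 : Qis κ₀ := by
    refine qis_of_bij κ₀ ?_ ?_
    · have h2 := (KV.kap_bijective (pullT A (A ⊗[ℂ] B) K.M.V) (fun a m => pullT_smul a m)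
        isBC_pullT).1
      intro x y hxy
      exact h2 ((h0 x).symm.trans (hxy.trans (h0 y)))
    · intro m y hy
      obtain ⟨z, hz, e⟩ := kap_surj K b m y hy
      exact ⟨z, kg_le K b m z hz, (h0 z).trans e⟩
  have h2 : Qis (DGM.DRg.map b' (pullM b t)) :=
    DGM.qis_DRg b' (pullDec (A ⊗[ℂ] B) b P) Q (pullM b t) hq
  refine qis_congr (u := (DGM.DRg.map b' (pullM b t)).comp κ₀) (fun z => ?_) (Qis.comp h2 h1)
  change Om ℂ B ⊗[ℂ] DR ℂ A K.M.V at z
  induction z using TensorProduct.induction_on with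
  | zero => exact (map_zero _).trans (map_zero _).symm
  | tmul w y =>
    rw [hκ]
    have e1 := dr_factor b t b' y
    change (DGM.DRg.map b' (pullM b t)).f (Om.pb (iB ℂ A B) w • ((pullI b K).dr b b').f y) =
      Om.pb (iB ℂ A B) w • (t.dr b b').f y
    rw [← e1]
    exact DGM.lT_smul (pullM b t).lin (Om.pb (iB ℂ A B) w) _
  | add x y hx hy =>
    exact (map_add _ x y).trans ((congrArg₂ (· + ·) hx hy).trans (map_add _ x y).symm)

end

end Vale.Agent.P286.H710
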