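import Mathlib

/-!
# The de Rham algebra of a commutative algebra

`Om k A` is the exterior algebra of the module of Kähler differentials of the `k`-algebra `A`, with
its differential `Om.d`, and the pull-back of differential forms.
-/

namespace Vale.Agent.P286.H710

open KaehlerDifferential

noncomputable section

section Basic

variable (k A : Type) [CommRing k] [CommRing A] [Algebra k A]

/-- The algebra of differential forms. -/
abbrev Om : Type := ExteriorAlgebra A (Ω[A⁄k])

variable {k A}

/-- The sign automorphism. -/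
def Om.sg : Om k A →ₐ[A] Om k A := CliffordAlgebra.involute

/-- The one-form `db`. -/
def Om.dd (b : A) : Om k A := ExteriorAlgebra.ι A (D k A b)

@[simp] theorem Om.sg_ι (m : Ω[A⁄k]) :
    Om.sg (ExteriorAlgebra.ι A m) = - ExteriorAlgebra.ι A m := CliffordAlgebra.involute_ι m

@[simp] theorem Om.sg_sg (x : Om k A) : Om.sg (Om.sg x) = x := CliffordAlgebra.involute_involute x

theorem Om.sg_dd (b : A) : Om.sg (Om.dd b : Om k A) = - Om.dd b := Om.sg_ι _

/-- One-forms are odd. -/
theorem Om.ι_mul (m : Ω[A⁄k]) (x : Om k A) :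
    ExteriorAlgebra.ι A m * x = Om.sg x * ExteriorAlgebra.ι A m := by
  induction x using ExteriorAlgebra.induction with
  | algebraMap r => 
    rw [AlgHom.commutes]
    exact (Algebra.commutes r _).symm
  | ι x => 
    rw [Om.sg_ι, neg_mul]
    exact eq_neg_of_add_eq_zero_left (ExteriorAlgebra.ι_add_mul_swap m x)
  | mul a b ha hb => rw [← mul_assoc, ha, mul_assoc, hb, map_mul, mul_assoc]
  | add a b ha hb => rw [mul_add, ha, hb, map_add, add_mul]

/-- The bimodule `Om`, with the left action twisted by the sign. -/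
def TwOm (k A : Type) [CommRing k] [CommRing A] [Algebra k A] : Type := Om k A

section Tw

instance : AddCommGroup (TwOm k A) := inferInstanceAs (AddCommGroup (Om k A))

instance : Module (Om k A) (TwOm k A) where
  smul x m := (Om.sg x * (show Om k A from m) : Om k A)
  one_smul m := by
    change (Om.sg (1 : Om k A) * (show Om k A from m) : Om k A) = m
    rw [map_one, one_mul]
  mul_smul x y m := by
    change (Om.sg (x * y) * (show Om k A from m) : Om k A) = Om.sg x * (Om.sg y * (show Om k A from m))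
    rw [map_mul, mul_assoc]
  smul_zero x := mul_zero (Om.sg x)
  smul_add x m n := mul_add (Om.sg x) (show Om k A from m) (show Om k A from n)
  add_smul x y m := by
    change (Om.sg (x + y) * (show Om k A from m) : Om k A) = Om.sg x * (show Om k A from m) + Om.sg y * (show Om k A from m)
    rw [map_add, add_mul]
  zero_smul m := by
    change (Om.sg (0 : Om k A) * (show Om k A from m) : Om k A) = 0
    rw [map_zero, zero_mul]

instance : Module (Om k A)ᵐᵒᵖ (TwOm k A) where
  smul x m := ((show Om k A from m) * x.unop : Om k A)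
  one_smul m := mul_one (show Om k A from m)
  mul_smul x y m := (mul_assoc (show Om k A from m) y.unop x.unop).symm
  smul_zero x := zero_mul x.unop
  smul_add x m n := add_mul (show Om k A from m) (show Om k A from n) x.unop
  add_smul x y m := mul_add (show Om k A from m) x.unop y.unop
  zero_smul m := mul_zero (show Om k A from m)

instance : SMulCommClass (Om k A) (Om k A)ᵐᵒᵖ (TwOm k A) where
  smul_comm x y m := (mul_assoc (Om.sg x) (show Om k A from m) y.unop).symm

/-- The pairs `(z, y)` with `(z, y)(z', y') = (z z', sg z y' + y z')`. -/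
abbrev Tw (k A : Type) [CommRing k] [CommRing A] [Algebra k A] : Type :=
  TrivSqZeroExt (Om k A) (TwOm k A)

/-- The second component. -/
def Tw.s (t : Tw k A) : Om k A := TrivSqZeroExt.snd t

/-- The pair `(z, y)`. -/
def Tw.mk (z y : Om k A) : Tw k A := (z, y)

theorem Tw.ext {t u : Tw k A} (h : t.fst = u.fst) (h' : t.s = u.s) : t = u :=
  TrivSqZeroExt.ext h h'

@[simp] theorem Tw.fst_mk (z y : Om k A) : (Tw.mk z y).fst = z := rfl

@[simp] theorem Tw.s_mk (z y : Om k A) : (Tw.mk z y).s = y := rfl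

theorem Tw.s_mul (t u : Tw k A) : (t * u).s = Om.sg t.fst * u.s + t.s * u.fst := rfl

theorem Tw.s_add (t u : Tw k A) : (t + u).s = t.s + u.s := rfl

theorem Tw.mk_mul (a b c d : Om k A) :
    Tw.mk a b * Tw.mk c d = Tw.mk (a * c) (Om.sg a * d + b * c) := rfl

theorem Tw.mk_add (a b c d : Om k A) : Tw.mk a b + Tw.mk c d = Tw.mk (a + c) (b + d) := rfl

/-- The `A`-algebra structure `a ↦ (a, da)`. -/
def Tw.al (k A : Type) [CommRing k] [CommRing A] [Algebra k A] : A →+* Tw k A where
  toFun a := Tw.mk (algebraMap A _ a) (Om.dd a)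
  map_one' := by
    rw [map_one]
    change Tw.mk 1 (ExteriorAlgebra.ι A (D k A 1)) = 1
    rw [Derivation.map_one_eq_zero, map_zero]
    rfl
  map_mul' a b := by
    rw [Tw.mk_mul, map_mul, Om.dd, Derivation.leibniz, map_add, map_smul, map_smul,
      Om.sg.commutes, Algebra.smul_def, Algebra.smul_def]
    congr 2
    exact Algebra.commutes _ _
  map_zero' := by
    rw [map_zero]
    change Tw.mk 0 (ExteriorAlgebra.ι A (D k A 0)) = 0
    rw [map_zero, map_zero]
    rfl
  map_add' a b := by
    rw [Tw.mk_add, map_add, Om.dd, map_add, map_add]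
    rfl

theorem Tw.al_comm (a : A) (z y : Om k A) : Tw.al k A a * Tw.mk z y = Tw.mk z y * Tw.al k A a := by
  change Tw.mk (algebraMap A _ a) (Om.dd a) * Tw.mk z y = Tw.mk z y * Tw.mk (algebraMap A _ a) (Om.dd a)
  rw [Tw.mk_mul, Tw.mk_mul, Om.sg.commutes, Algebra.commutes a z, Algebra.commutes a y, Om.dd,
    Om.ι_mul, add_comm]

instance : Algebra A (Tw k A) := (Tw.al k A).toAlgebra' (fun a x => Tw.al_comm a x.1 x.2)

theorem Tw.algebraMap_eq (a : A) : algebraMap A (Tw k A) a = Tw.mk (algebraMap A _ a) (Om.dd a) :=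
  rfl

theorem Tw.smul_mk (a : A) (z y : Om k A) :
    a • Tw.mk z y = Tw.mk (a • z) (a • y + Om.dd a * z) := by
  rw [Algebra.smul_def, Tw.algebraMap_eq, Tw.mk_mul, Om.sg.commutes, Algebra.smul_def,
    Algebra.smul_def]

instance : Algebra k (Tw k A) := ((Tw.al k A).comp (algebraMap k A)).toAlgebra' (fun a x => by
  exact Tw.al_comm _ x.1 x.2)

instance : IsScalarTower k A (Tw k A) := IsScalarTower.of_algebraMap_eq fun _ => rfl

/-- The derivation `b ↦ (db, 0)`. -/
def Tw.dr (k A : Type) [CommRing k] [CommRing A] [Algebra k A] : Derivation k A (Tw k A) :=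
  Derivation.mk'
    { toFun := fun b => Tw.mk (Om.dd b) 0
      map_add' := fun b c => by
        rw [Tw.mk_add, Om.dd, map_add, map_add, add_zero]
        rfl
      map_smul' := fun c b => by
        have h : c • Tw.mk (Om.dd b : Om k A) 0 = (algebraMap k A c) • Tw.mk (Om.dd b) 0 := by
          rw [Algebra.smul_def, Algebra.smul_def]
          rfl
        have h2 : (Om.dd (algebraMap k A c) : Om k A) = 0 := by
          rw [Om.dd, Derivation.map_algebraMap, map_zero]
        rw [RingHom.id_apply, h, Tw.smul_mk, h2, zero_mul, smul_zero, add_zero, Om.dd,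
          Derivation.map_smul, ← algebraMap_smul A c (D k A b), map_smul]
        rfl }
    (fun a b => by
      change Tw.mk (Om.dd (a * b)) 0 = a • Tw.mk (Om.dd b) 0 + b • Tw.mk (Om.dd a) 0
      rw [Tw.smul_mk, Tw.smul_mk, Tw.mk_add, Om.dd, Derivation.leibniz, map_add, map_smul,
        map_smul, smul_zero, smul_zero, zero_add, zero_add, Om.dd, Om.dd,
        ExteriorAlgebra.ι_add_mul_swap])

/-- The map `m ↦ (m, dm)`. -/
def Tw.lin (k A : Type) [CommRing k] [CommRing A] [Algebra k A] : Ω[A⁄k] →ₗ[A] Tw k A :=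
  (Tw.dr k A).liftKaehlerDifferential

theorem Tw.lin_D (b : A) : Tw.lin k A (D k A b) = Tw.mk (Om.dd b) 0 :=
  Derivation.liftKaehlerDifferential_comp_D _ _

theorem Tw.lin_spec (m : Ω[A⁄k]) : (Tw.lin k A m).fst = ExteriorAlgebra.ι A m ∧
    Om.sg (Tw.lin k A m).s = (Tw.lin k A m).s := by
  have hm : m ∈ Submodule.span A (Set.range (D k A)) := by
    rw [KaehlerDifferential.span_range_derivation]
    trivial
  induction hm using Submodule.span_induction with
  | mem x hx => 
    obtain ⟨b, rfl⟩ := hx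
    rw [Tw.lin_D]
    exact ⟨rfl, map_zero _⟩
  | zero => 
    rw [map_zero]
    exact ⟨(map_zero _).symm, map_zero _⟩
  | add x y _ _ hx hy => 
    rw [map_add]
    refine ⟨?_, ?_⟩
    · rw [TrivSqZeroExt.fst_add, hx.1, hy.1, map_add]
    · rw [Tw.s_add, map_add, hx.2, hy.2]
  | smul a x _ hx => 
    rw [map_smul]
    obtain ⟨h1, h2⟩ := hx
    generalize Tw.lin k A x = t at h1 h2 ⊢
    have ht : t = Tw.mk t.fst t.s := rfl
    rw [ht, Tw.smul_mk, Tw.fst_mk, Tw.s_mk, h1]
    refine ⟨(map_smul _ _ _).symm, ?_⟩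
    rw [map_add, map_smul, h2, map_mul, Om.sg_dd, Om.sg_ι, neg_mul_neg]

theorem Tw.lin_sq (m : Ω[A⁄k]) : Tw.lin k A m * Tw.lin k A m = 0 := by
  obtain ⟨h1, h2⟩ := Tw.lin_spec m
  generalize Tw.lin k A m = t at h1 h2 ⊢
  have ht : t = Tw.mk t.fst t.s := rfl
  rw [ht, Tw.mk_mul, h1, ExteriorAlgebra.ι_sq_zero, Om.sg_ι, neg_mul, Om.ι_mul, h2,
    neg_add_cancel]
  rfl

/-- The homomorphism `x ↦ (x, dx)`. -/
def Tw.F (k A : Type) [CommRing k] [CommRing A] [Algebra k A] : Om k A →ₐ[A] Tw k A :=
  ExteriorAlgebra.lift A ⟨Tw.lin k A, Tw.lin_sq⟩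

theorem Tw.F_ι (m : Ω[A⁄k]) : Tw.F k A (ExteriorAlgebra.ι A m) = Tw.lin k A m :=
  ExteriorAlgebra.lift_ι_apply _ _ _ _

theorem Tw.F_dd (b : A) : Tw.F k A (Om.dd b) = Tw.mk (Om.dd b) 0 := by
  rw [Om.dd, Tw.F_ι, Tw.lin_D]
  rfl

theorem Tw.F_fst (x : Om k A) : (Tw.F k A x).fst = x := by
  induction x using ExteriorAlgebra.induction with
  | algebraMap r => 
    rw [AlgHom.commutes]
    rfl
  | ι x => 
    rw [Tw.F_ι]
    exact (Tw.lin_spec x).1
  | mul a b ha hb => rw [map_mul, TrivSqZeroExt.fst_mul, ha, hb]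
  | add a b ha hb => rw [map_add, TrivSqZeroExt.fst_add, ha, hb]

end Tw

/-- The differential. -/
def Om.d (x : Om k A) : Om k A := (Tw.F k A x).s

theorem Tw.F_eq (x : Om k A) : Tw.F k A x = Tw.mk x (Om.d x) := by
  apply Tw.ext
  · exact Tw.F_fst x
  · rfl

theorem Om.d_mul (x y : Om k A) : Om.d (x * y) = Om.sg x * Om.d y + Om.d x * y := by
  have h := congrArg Tw.s (map_mul (Tw.F k A) x y)
  rwa [Tw.F_eq, Tw.F_eq, Tw.F_eq, Tw.mk_mul] at h

theorem Om.d_add (x y : Om k A) : Om.d (x + y) = Om.d x + Om.d y := by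
  have h := congrArg Tw.s (map_add (Tw.F k A) x y)
  rwa [Tw.F_eq, Tw.F_eq, Tw.F_eq, Tw.mk_add] at h

theorem Om.d_algebraMap (a : A) : Om.d (algebraMap A (Om k A) a) = Om.dd a := by
  have h := congrArg Tw.s (AlgHom.commutes (Tw.F k A) a)
  exact h

theorem Om.d_smul (a : A) (x : Om k A) : Om.d (a • x) = a • Om.d x + Om.dd a * x := by
  rw [Algebra.smul_def, Om.d_mul, Om.sg.commutes, Om.d_algebraMap, Algebra.smul_def]

theorem Om.d_dd (b : A) : Om.d (Om.dd b : Om k A) = 0 := by
  unfold Om.d
  rw [Tw.F_dd]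
  rfl

theorem Om.d_zero : Om.d (0 : Om k A) = 0 := by
  have h := Om.d_add (0 : Om k A) 0
  rw [add_zero] at h
  exact left_eq_add.1 h

theorem Om.d_neg (x : Om k A) : Om.d (-x) = - Om.d x := by
  have h := Om.d_add x (-x)
  rw [add_neg_cancel, Om.d_zero] at h
  exact (neg_eq_of_add_eq_zero_right h.symm).symm

/-- The differential as an additive map. -/
def Om.dAdd : Om k A →+ Om k A where
  toFun := Om.d
  map_zero' := Om.d_zero
  map_add' := Om.d_add

theorem Om.d_sum {I : Type} (s : Finset I) (x : I → Om k A) :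
    Om.d (∑ i ∈ s, x i) = ∑ i ∈ s, Om.d (x i) := map_sum Om.dAdd _ _

theorem Om.d_sub (x y : Om k A) : Om.d (x - y) = Om.d x - Om.d y := map_sub Om.dAdd _ _

theorem Om.dd_add (a b : A) : (Om.dd (a + b) : Om k A) = Om.dd a + Om.dd b := by
  rw [Om.dd, map_add, map_add]
  rfl

theorem Om.ι_csmul (c : k) (m : Ω[A⁄k]) :
    (ExteriorAlgebra.ι A (c • m) : Om k A) = c • ExteriorAlgebra.ι A m := by
  rw [← algebraMap_smul A c m, map_smul, algebraMap_smul]

theorem Om.dd_csmul (c : k) (b : A) : (Om.dd (c • b) : Om k A) = c • Om.dd b := by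
  rw [Om.dd, Derivation.map_smul, Om.ι_csmul]
  rfl

theorem Om.dd_mul (a b : A) : (Om.dd (a * b) : Om k A) = a • Om.dd b + b • Om.dd a := by
  rw [Om.dd, Derivation.leibniz, map_add, map_smul, map_smul]
  rfl

theorem Om.dd_const (c : k) : (Om.dd (algebraMap k A c) : Om k A) = 0 := by
  rw [Om.dd, Derivation.map_algebraMap, map_zero]

theorem Om.sg_csmul (c : k) (x : Om k A) : Om.sg (c • x) = c • Om.sg x := by
  rw [← algebraMap_smul A c x, map_smul, algebraMap_smul]

theorem Om.d_csmul (c : k) (x : Om k A) : Om.d (c • x) = c • Om.d x := by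
  rw [← algebraMap_smul A c x, Om.d_smul, Om.dd_const, zero_mul, add_zero, algebraMap_smul]

/-- The one-forms are generated by the exact ones. -/
theorem Om.induction {P : Om k A → Prop} (alg : ∀ a : A, P (algebraMap A _ a))
    (dd : ∀ b : A, P (Om.dd b)) (mul : ∀ x y, P x → P y → P (x * y))
    (add : ∀ x y, P x → P y → P (x + y)) (x : Om k A) : P x := by
  induction x using ExteriorAlgebra.induction with
  | algebraMap r => exact alg r
  | ι m => 
    have hm : m ∈ Submodule.span A (Set.range (D k A)) := by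
      rw [KaehlerDifferential.span_range_derivation]
      trivial
    induction hm using Submodule.span_induction with
    | mem x hx => 
      obtain ⟨b, rfl⟩ := hx
      exact dd b
    | zero => 
      rw [map_zero, ← map_zero (algebraMap A (Om k A))]
      exact alg 0
    | add x y _ _ hx hy => 
      rw [map_add]
      exact add _ _ hx hy
    | smul a x _ hx => 
      rw [map_smul, Algebra.smul_def]
      exact mul _ _ (alg a) hx
  | mul a b ha hb => exact mul _ _ ha hb
  | add a b ha hb => exact add _ _ ha hb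

theorem Om.d_sg (x : Om k A) : Om.d (Om.sg x) = - Om.sg (Om.d x) := by
  induction x using Om.induction with
  | alg a => rw [Om.sg.commutes, Om.d_algebraMap, Om.sg_dd, neg_neg]
  | dd b => rw [Om.sg_dd, Om.d_neg, Om.d_dd, map_zero]
  | mul x y hx hy => 
    rw [map_mul, Om.d_mul, hx, hy, Om.d_mul, map_add, map_mul, map_mul]
    noncomm_ring
  | add x y hx hy => rw [map_add, Om.d_add, hx, hy, Om.d_add, map_add, neg_add]

theorem Om.d_d (x : Om k A) : Om.d (Om.d x) = 0 := by
  induction x using Om.induction with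
  | alg a => rw [Om.d_algebraMap, Om.d_dd]
  | dd b => rw [Om.d_dd, Om.d_zero]
  | mul x y hx hy => 
    rw [Om.d_mul, Om.d_add, Om.d_mul, Om.d_mul, hx, hy, Om.d_sg, Om.sg_sg]
    noncomm_ring
  | add x y hx hy => rw [Om.d_add, Om.d_add, hx, hy, add_zero]

end Basic

section Functor

variable {k A B C : Type} [CommRing k] [CommRing A] [Algebra k A] [CommRing B] [Algebra k B]
  [CommRing C] [Algebra k C]

/-- Two homomorphisms which agree on functions and on exact forms are equal. -/
theorem Om.hom_ext {E : Type} [Semiring E] {f g : Om k A →+* E}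
    (h0 : ∀ a : A, f (algebraMap A _ a) = g (algebraMap A _ a))
    (h1 : ∀ b : A, f (Om.dd b) = g (Om.dd b)) : f = g := by
  ext x
  induction x using Om.induction with
  | alg a => exact h0 a
  | dd b => exact h1 b
  | mul x y hx hy => rw [map_mul, map_mul, hx, hy]
  | add x y hx hy => rw [map_add, map_add, hx, hy]

theorem Om.algHom_ext {E : Type} [Semiring E] [Algebra A E] {f g : Om k A →ₐ[A] E}
    (h1 : ∀ b : A, f (Om.dd b) = g (Om.dd b)) : f = g := by
  apply AlgHom.ext
  intro x
  induction x using Om.induction with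
  | alg a => rw [f.commutes, g.commutes]
  | dd b => exact h1 b
  | mul x y hx hy => rw [map_mul, map_mul, hx, hy]
  | add x y hx hy => rw [map_add, map_add, hx, hy]

/-- The algebra structure given by a homomorphism. -/
abbrev Om.algM (f : A →ₐ[k] B) : Algebra A (Om k B) :=
  ((algebraMap B (Om k B)).comp f.toRingHom).toAlgebra' (fun a x => Algebra.commutes (f a) x)

theorem Om.towM (f : A →ₐ[k] B) : letI := Om.algM f; IsScalarTower k A (Om k B) :=
  letI := Om.algM f
  IsScalarTower.of_algebraMap_smul (fun r x => by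
    change (algebraMap B (Om k B) (f (algebraMap k A r))) * x = r • x
    rw [AlgHom.commutes, ← Algebra.smul_def, algebraMap_smul])

/-- The pull-back of one-forms, with values in the algebra of forms. -/
def Om.preMap (f : A →ₐ[k] B) :
    letI := Om.algM f
    Om k A →ₐ[A] Om k B :=
  letI := Om.algM f
  have hs : ∀ (a : A) (x : Om k B), a • x = algebraMap B (Om k B) (f a) * x := fun _ _ => rfl
  haveI : IsScalarTower k A (Om k B) := Om.towM f
  let D' : Derivation k A (Om k B) := Derivation.mk'
    { toFun := fun a => Om.dd (f a)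
      map_add' := fun a b => by rw [map_add, Om.dd, map_add, map_add]; rfl
      map_smul' := fun c a => by
        rw [map_smul, Om.dd, Derivation.map_smul, RingHom.id_apply,
          ← algebraMap_smul B c (D k B (f a)), map_smul, algebraMap_smul]
        rfl }
    (fun a b => by
      change Om.dd (f (a * b)) = a • Om.dd (f b) + b • Om.dd (f a)
      rw [hs, hs, map_mul, Om.dd, Derivation.leibniz, map_add, map_smul, map_smul,
        Algebra.smul_def, Algebra.smul_def]
      rfl)
  ExteriorAlgebra.lift A ⟨D'.liftKaehlerDifferential, fun m => by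
    have h : ∃ n : Ω[B⁄k], D'.liftKaehlerDifferential m = ExteriorAlgebra.ι B n := by
      have hm : m ∈ Submodule.span A (Set.range (D k A)) := by
        rw [KaehlerDifferential.span_range_derivation]
        trivial
      induction hm using Submodule.span_induction with
      | mem x hx => 
        obtain ⟨b, rfl⟩ := hx
        exact ⟨D k B (f b), Derivation.liftKaehlerDifferential_comp_D _ _⟩
      | zero => exact ⟨0, by rw [map_zero, map_zero]⟩
      | add x y _ _ hx hy => 
        obtain ⟨n1, h1⟩ := hx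
        obtain ⟨n2, h2⟩ := hy
        exact ⟨n1 + n2, by rw [map_add, map_add, h1, h2]⟩
      | smul a x _ hx => 
        obtain ⟨n1, h1⟩ := hx
        exact ⟨f a • n1, by rw [map_smul, map_smul, h1, hs, Algebra.smul_def]⟩
    obtain ⟨n, hn⟩ := h
    rw [hn, ExteriorAlgebra.ι_sq_zero]⟩

/-- The pull-back of differential forms. -/
def Om.pb (f : A →ₐ[k] B) : Om k A →+* Om k B :=
  letI := Om.algM f
  (Om.preMap f).toRingHom

theorem Om.pb_alg (f : A →ₐ[k] B) (a : A) :
    Om.pb f (algebraMap A _ a) = algebraMap B _ (f a) :=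
  letI := Om.algM f
  (Om.preMap f).commutes a

theorem Om.pb_dd (f : A →ₐ[k] B) (a : A) : Om.pb f (Om.dd a) = Om.dd (f a) := by
  let _ := Om.algM f
  have := Om.towM f
  unfold Om.pb Om.preMap Om.dd
  refine (ExteriorAlgebra.lift_ι_apply _ _ _ _).trans ?_
  exact Derivation.liftKaehlerDifferential_comp_D _ _

theorem Om.pb_smul (f : A →ₐ[k] B) (a : A) (x : Om k A) :
    Om.pb f (a • x) = f a • Om.pb f x := by
  rw [Algebra.smul_def, map_mul, Om.pb_alg, Algebra.smul_def]

theorem Om.pb_csmul (f : A →ₐ[k] B) (c : k) (x : Om k A) :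
    Om.pb f (c • x) = c • Om.pb f x := by
  rw [← algebraMap_smul A c x, Om.pb_smul, AlgHom.commutes, algebraMap_smul]

theorem Om.pb_sg (f : A →ₐ[k] B) (x : Om k A) : Om.pb f (Om.sg x) = Om.sg (Om.pb f x) := by
  induction x using Om.induction with
  | alg a => rw [Om.sg.commutes, Om.pb_alg, Om.sg.commutes]
  | dd b => rw [Om.sg_dd, map_neg, Om.pb_dd, Om.sg_dd]
  | mul x y hx hy => rw [map_mul, map_mul, map_mul, map_mul, hx, hy]
  | add x y hx hy => rw [map_add, map_add, map_add, map_add, hx, hy]

theorem Om.pb_d (f : A →ₐ[k] B) (x : Om k A) : Om.pb f (Om.d x) = Om.d (Om.pb f x) := by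
  induction x using Om.induction with
  | alg a => rw [Om.d_algebraMap, Om.pb_dd, Om.pb_alg, Om.d_algebraMap]
  | dd b => rw [Om.d_dd, Om.pb_dd, Om.d_dd, map_zero]
  | mul x y hx hy => 
    rw [Om.d_mul, map_add, map_mul, map_mul, map_mul, hx, hy, Om.pb_sg, Om.d_mul]
  | add x y hx hy => rw [Om.d_add, map_add, map_add, hx, hy, Om.d_add]

@[simp] theorem Om.pb_id (x : Om k A) : Om.pb (AlgHom.id k A) x = x := by
  have h : Om.pb (AlgHom.id k A) = RingHom.id (Om k A) := by
    apply Om.hom_ext
    · intro a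
      rw [Om.pb_alg]
      rfl
    · intro a
      rw [Om.pb_dd]
      rfl
  rw [h, RingHom.id_apply]

theorem Om.pb_pb (f : A →ₐ[k] B) (g : B →ₐ[k] C) (x : Om k A) :
    Om.pb g (Om.pb f x) = Om.pb (g.comp f) x := by
  have h : (Om.pb g).comp (Om.pb f) = Om.pb (g.comp f) := by
    apply Om.hom_ext
    · intro a
      rw [RingHom.comp_apply, Om.pb_alg, Om.pb_alg, Om.pb_alg]
      rfl
    · intro a
      rw [RingHom.comp_apply, Om.pb_dd, Om.pb_dd, Om.pb_dd]
      rfl
  rw [← h, RingHom.comp_apply]

end Functor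

end

end Vale.Agent.P286.H710
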