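import Vale.Agent.P286.H710.OmCt

/-!
# The de Rham complex with coefficients in a module with a flat connection
-/

namespace Vale.Agent.P286.H710

open KaehlerDifferential TensorProduct

noncomputable section

/-- A left action of the vector fields on an `A`-module `M` (a left `D`-module structure). -/
structure FC (k A M : Type) [CommRing k] [CommRing A] [Algebra k A] [AddCommGroup M]
    [Module A M] where
  act : Derivation k A A → M → M
  act_add : ∀ v m m', act v (m + m') = act v m + act v m'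
  add_act : ∀ v w m, act (v + w) m = act v m + act w m
  smul_act : ∀ (a : A) v m, act (a • v) m = a • act v m
  leibniz : ∀ v (a : A) m, act v (a • m) = v a • m + a • act v m
  lie_act : ∀ v w m, act ⁅v, w⁆ m = act v (act w m) - act w (act v m)

/-- A dual basis of the module of differentials. -/
structure DB (k A : Type) [CommRing k] [CommRing A] [Algebra k A] where
  n : ℕ
  x : Fin n → A
  v : Fin n → Derivation k A A
  h : ∀ a : A, D k A a = ∑ i, v i a • D k A (x i)

variable {k A B M N : Type} [CommRing k] [CommRing A] [Algebra k A] [CommRing B] [Algebra k B]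
  [AddCommGroup M] [Module A M] [AddCommGroup N] [Module B N]

/-- A derivation is determined by its values on the coordinates. -/
theorem DB.der (b : DB k A) (w : Derivation k A A) (a : A) :
    w a = ∑ i, w (b.x i) * b.v i a := by
  have h := congrArg w.liftKaehlerDifferential (b.h a)
  rw [Derivation.liftKaehlerDifferential_comp_D, map_sum] at h
  rw [h]
  refine Finset.sum_congr rfl fun i _ => ?_
  rw [map_smul, Derivation.liftKaehlerDifferential_comp_D, smul_eq_mul, mul_comm]

theorem DB.der_eq (b : DB k A) (w : Derivation k A A) : w = ∑ i, w (b.x i) • b.v i := by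
  ext a
  have h := map_sum (Derivation.coeFnAddMonoidHom (R := k) (A := A) (M := A))
    (fun i => w (b.x i) • b.v i) Finset.univ
  refine (b.der w a).trans ?_
  refine Eq.trans ?_ (congrFun h a).symm
  rw [Finset.sum_apply]
  rfl

theorem DB.dd (b : DB k A) (a : A) : (Om.dd a : Om k A) = ∑ i, b.v i a • Om.dd (b.x i) := by
  rw [Om.dd, b.h a, map_sum]
  exact Finset.sum_congr rfl fun i _ => map_smul _ _ _

namespace FC

variable (C : FC k A M)

theorem act_zero (v : Derivation k A A) : C.act v 0 = 0 := by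
  have := C.act_add v 0 0
  simpa using this

theorem zero_act (m : M) : C.act 0 m = 0 := by
  have := C.add_act 0 0 m
  simpa using this

theorem act_neg (v : Derivation k A A) (m : M) : C.act v (-m) = - C.act v m := by
  have := C.act_add v m (-m)
  rw [add_neg_cancel, act_zero] at this
  exact (neg_eq_of_add_eq_zero_right this.symm).symm

theorem sum_act {I : Type} (s : Finset I) (v : I → Derivation k A A) (m : M) :
    C.act (∑ i ∈ s, v i) m = ∑ i ∈ s, C.act (v i) m := by
  classical
  induction s using Finset.induction_on with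
  | empty => rw [Finset.sum_empty, Finset.sum_empty, C.zero_act]
  | insert i s hi ih => rw [Finset.sum_insert hi, Finset.sum_insert hi, C.add_act, ih]

/-- The action of a vector field in coordinates. -/
theorem act_eq (b : DB k A) (w : Derivation k A A) (m : M) :
    C.act w m = ∑ i, w (b.x i) • C.act (b.v i) m := by
  conv_lhs => rw [b.der_eq w]
  rw [C.sum_act]
  exact Finset.sum_congr rfl fun i _ => C.smul_act _ _ _

end FC

/-- The de Rham complex with coefficients (ungraded). -/
abbrev DR (k A M : Type) [CommRing k] [CommRing A] [Algebra k A] [AddCommGroup M]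
    [Module A M] : Type := Om k A ⊗[A] M

theorem DR.neg_smul (w : Om k A) (x : DR k A M) : (-w) • x = -(w • x) := by
  rw [eq_neg_iff_add_eq_zero, ← add_smul, neg_add_cancel, zero_smul]

/-- The connection. -/
def nab (b : DB k A) (C : FC k A M) : M →+ DR k A M where
  toFun m := ∑ i, (Om.dd (b.x i) : Om k A) ⊗ₜ[A] C.act (b.v i) m
  map_zero' := Finset.sum_eq_zero fun i _ => by rw [C.act_zero, tmul_zero]
  map_add' m m' := by
    rw [← Finset.sum_add_distrib]
    exact Finset.sum_congr rfl fun i _ => by rw [C.act_add, tmul_add]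

theorem nab_apply (b : DB k A) (C : FC k A M) (m : M) :
    nab b C m = ∑ i, (Om.dd (b.x i) : Om k A) ⊗ₜ[A] C.act (b.v i) m := rfl

/-- The connection does not depend on the coordinates. -/
theorem nab_indep (b b' : DB k A) (C : FC k A M) : nab b C = nab b' C := by
  ext m
  rw [nab_apply, nab_apply]
  have h : ∀ j ∈ Finset.univ, (Om.dd (b'.x j) : Om k A) ⊗ₜ[A] C.act (b'.v j) m =
      ∑ i, (b'.v j (b.x i) • Om.dd (b'.x j) : Om k A) ⊗ₜ[A] C.act (b.v i) m := by
    intro j _
    rw [C.act_eq b (b'.v j) m, tmul_sum]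
    exact Finset.sum_congr rfl fun i _ => by rw [smul_tmul]
  rw [Finset.sum_congr rfl h, Finset.sum_comm]
  refine Finset.sum_congr rfl fun i _ => ?_
  rw [← sum_tmul, ← b'.dd]

theorem nab_smul (b : DB k A) (C : FC k A M) (a : A) (m : M) :
    nab b C (a • m) = Om.dd a ⊗ₜ[A] m + a • nab b C m := by
  rw [nab_apply, nab_apply, b.dd a, sum_tmul, Finset.smul_sum, ← Finset.sum_add_distrib]
  refine Finset.sum_congr rfl fun i _ => ?_
  rw [C.leibniz, tmul_add, tmul_smul, tmul_smul, smul_tmul']

/-- The differential of the de Rham complex. -/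
def dR (b : DB k A) (C : FC k A M) : DR k A M →+ DR k A M :=
  TensorProduct.liftAddHom
    { toFun := fun w =>
        { toFun := fun m => Om.d w ⊗ₜ[A] m + Om.sg w • nab b C m
          map_zero' := by rw [tmul_zero, map_zero, smul_zero, add_zero]
          map_add' := fun m m' => by
            rw [tmul_add, map_add, smul_add]
            abel }
      map_zero' := by
        ext m
        change Om.d 0 ⊗ₜ[A] m + Om.sg (0 : Om k A) • nab b C m = 0
        rw [Om.d_zero, zero_tmul, map_zero, zero_smul, add_zero]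
      map_add' := fun w w' => by
        ext m
        change Om.d (w + w') ⊗ₜ[A] m + Om.sg (w + w') • nab b C m =
          (Om.d w ⊗ₜ[A] m + Om.sg w • nab b C m) + (Om.d w' ⊗ₜ[A] m + Om.sg w' • nab b C m)
        rw [Om.d_add, add_tmul, map_add, add_smul]
        abel }
    (fun a w m => by
      change Om.d (a • w) ⊗ₜ[A] m + Om.sg (a • w) • nab b C m =
        Om.d w ⊗ₜ[A] (a • m) + Om.sg w • nab b C (a • m)
      rw [nab_smul, Om.d_smul, map_smul, add_tmul, smul_tmul, smul_add, add_assoc]
      congr 1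
      rw [Om.dd, Om.ι_mul]
      congr 1
      rw [smul_assoc, smul_comm a (Om.sg w) (nab b C m)])

theorem dR_tmul (b : DB k A) (C : FC k A M) (w : Om k A) (m : M) :
    dR b C (w ⊗ₜ[A] m) = Om.d w ⊗ₜ[A] m + Om.sg w • nab b C m := rfl

theorem dR_indep (b b' : DB k A) (C : FC k A M) : dR b C = dR b' C := by
  ext x
  induction x using TensorProduct.induction_on with
  | zero => rw [map_zero, map_zero]
  | tmul w m => rw [dR_tmul, dR_tmul, nab_indep b b']
  | add x y hx hy => rw [map_add, map_add, hx, hy]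

/-- The Leibniz rule. -/
theorem dR_smul (b : DB k A) (C : FC k A M) (w : Om k A) (x : DR k A M) :
    dR b C (w • x) = Om.d w • x + Om.sg w • dR b C x := by
  induction x using TensorProduct.induction_on with
  | zero => simp
  | tmul u m =>
    rw [smul_tmul', smul_eq_mul, dR_tmul, dR_tmul, Om.d_mul, map_mul, add_tmul, smul_add,
      smul_tmul', smul_tmul', smul_smul, smul_eq_mul, smul_eq_mul]
    abel
  | add x y hx hy =>
    rw [smul_add, map_add, hx, hy, map_add, smul_add, smul_add]
    abel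

theorem dR_sum {I : Type} (s : Finset I) (b : DB k A) (C : FC k A M) (x : I → DR k A M) :
    dR b C (∑ i ∈ s, x i) = ∑ i ∈ s, dR b C (x i) := map_sum _ _ _

/-- The connection is flat. -/
theorem dR_nab (h2 : IsUnit (2 : A)) (b : DB k A) (C : FC k A M) (m : M) :
    dR b C (nab b C m) = 0 := by
  have h1 : dR b C (nab b C m) = - ∑ i, ∑ j,
      (Om.dd (b.x i) * Om.dd (b.x j) : Om k A) ⊗ₜ[A] C.act (b.v j) (C.act (b.v i) m) := by
    rw [nab_apply, dR_sum, ← Finset.sum_neg_distrib]
    refine Finset.sum_congr rfl fun i _ => ?_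
    rw [dR_tmul, Om.d_dd, zero_tmul, zero_add, Om.sg_dd, nab_apply, DR.neg_smul, Finset.smul_sum]
    congr 1
  set S := ∑ i, ∑ j,
      (Om.dd (b.x i) * Om.dd (b.x j) : Om k A) ⊗ₜ[A] C.act (b.v j) (C.act (b.v i) m) with hS
  have hanti : ∀ x y : A, (Om.dd x * Om.dd y : Om k A) = - (Om.dd y * Om.dd x) := fun x y =>
    eq_neg_of_add_eq_zero_left (ExteriorAlgebra.ι_add_mul_swap _ _)
  have h3 : S = - ∑ i, ∑ j,
      (Om.dd (b.x i) * Om.dd (b.x j) : Om k A) ⊗ₜ[A] C.act (b.v i) (C.act (b.v j) m) := by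
    rw [hS, Finset.sum_comm, ← Finset.sum_neg_distrib]
    refine Finset.sum_congr rfl fun i _ => ?_
    rw [← Finset.sum_neg_distrib]
    refine Finset.sum_congr rfl fun j _ => ?_
    rw [hanti, neg_tmul]
  -- the forms `∑ dx_i dx_j v_j (v_i x_l)` vanish
  have h4 : ∀ l, ∑ i, ∑ j, (b.v j (b.v i (b.x l)) • (Om.dd (b.x i) * Om.dd (b.x j) : Om k A)) = 0 := by
    intro l
    have e1 : ∀ i, ∑ j, (b.v j (b.v i (b.x l)) • (Om.dd (b.x i) * Om.dd (b.x j) : Om k A)) =
        Om.dd (b.x i) * Om.dd (b.v i (b.x l)) := by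
      intro i
      rw [b.dd (b.v i (b.x l)), Finset.mul_sum]
      exact Finset.sum_congr rfl fun j _ => (mul_smul_comm _ _ _).symm
    have e2 : Om.d (∑ i, b.v i (b.x l) • Om.dd (b.x i) : Om k A) = 0 := by
      rw [← b.dd (b.x l), Om.d_dd]
    have e3 : Om.d (∑ i, b.v i (b.x l) • Om.dd (b.x i) : Om k A) =
        ∑ i, Om.dd (b.v i (b.x l)) * Om.dd (b.x i) := by
      rw [Om.d_sum]
      refine Finset.sum_congr rfl fun i _ => ?_
      rw [Om.d_smul, Om.d_dd, smul_zero, zero_add]
    rw [Finset.sum_congr rfl fun i _ => e1 i]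
    have e4 : ∑ i, (Om.dd (b.x i) * Om.dd (b.v i (b.x l)) : Om k A) =
        - ∑ i, Om.dd (b.v i (b.x l)) * Om.dd (b.x i) := by
      rw [← Finset.sum_neg_distrib]
      exact Finset.sum_congr rfl fun i _ => hanti _ _
    rw [e4, ← e3, e2, neg_zero]
  have h5 : ∀ l, ∑ i, ∑ j, (b.v i (b.v j (b.x l)) • (Om.dd (b.x i) * Om.dd (b.x j) : Om k A)) = 0 := by
    intro l
    rw [Finset.sum_comm, ← neg_eq_zero, ← Finset.sum_neg_distrib, ← h4 l]
    refine Finset.sum_congr rfl fun i _ => ?_
    rw [← Finset.sum_neg_distrib]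
    refine Finset.sum_congr rfl fun j _ => ?_
    rw [hanti (b.x j) (b.x i), smul_neg, neg_neg]
  have h6 : S + S = 0 := by
    have e1 : S + S = ∑ i, ∑ j,
        (Om.dd (b.x i) * Om.dd (b.x j) : Om k A) ⊗ₜ[A] C.act ⁅b.v j, b.v i⁆ m := by
      nth_rw 2 [h3]
      rw [hS, ← sub_eq_add_neg, ← Finset.sum_sub_distrib]
      refine Finset.sum_congr rfl fun i _ => ?_
      rw [← Finset.sum_sub_distrib]
      refine Finset.sum_congr rfl fun j _ => ?_
      rw [C.lie_act, tmul_sub]
    have e2 : ∀ i j, (Om.dd (b.x i) * Om.dd (b.x j) : Om k A) ⊗ₜ[A] C.act ⁅b.v j, b.v i⁆ m =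
        ∑ l, (⁅b.v j, b.v i⁆ (b.x l) • (Om.dd (b.x i) * Om.dd (b.x j) : Om k A)) ⊗ₜ[A]
          C.act (b.v l) m := by
      intro i j
      rw [C.act_eq b ⁅b.v j, b.v i⁆ m, tmul_sum]
      exact Finset.sum_congr rfl fun l _ => by rw [smul_tmul]
    have e3 : S + S = ∑ l, (∑ i, ∑ j,
        ⁅b.v j, b.v i⁆ (b.x l) • (Om.dd (b.x i) * Om.dd (b.x j) : Om k A)) ⊗ₜ[A]
          C.act (b.v l) m := by
      rw [e1]
      have : ∀ i, ∑ j, (Om.dd (b.x i) * Om.dd (b.x j) : Om k A) ⊗ₜ[A] C.act ⁅b.v j, b.v i⁆ m =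
          ∑ l, (∑ j, ⁅b.v j, b.v i⁆ (b.x l) • (Om.dd (b.x i) * Om.dd (b.x j) : Om k A)) ⊗ₜ[A]
          C.act (b.v l) m := by
        intro i
        rw [Finset.sum_congr rfl fun j _ => e2 i j, Finset.sum_comm]
        exact Finset.sum_congr rfl fun l _ => (sum_tmul _ _ _).symm
      rw [Finset.sum_congr rfl fun i _ => this i, Finset.sum_comm]
      exact Finset.sum_congr rfl fun l _ => (sum_tmul _ _ _).symm
    rw [e3]
    refine Finset.sum_eq_zero fun l _ => ?_
    have e4 : ∑ i, ∑ j, ⁅b.v j, b.v i⁆ (b.x l) • (Om.dd (b.x i) * Om.dd (b.x j) : Om k A) =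
        ∑ i, ∑ j, (b.v j (b.v i (b.x l)) • (Om.dd (b.x i) * Om.dd (b.x j) : Om k A)) -
        ∑ i, ∑ j, (b.v i (b.v j (b.x l)) • (Om.dd (b.x i) * Om.dd (b.x j) : Om k A)) := by
      rw [← Finset.sum_sub_distrib]
      refine Finset.sum_congr rfl fun i _ => ?_
      rw [← Finset.sum_sub_distrib]
      refine Finset.sum_congr rfl fun j _ => ?_
      rw [Derivation.commutator_apply, sub_smul]
    rw [e4, h4, h5, sub_zero, zero_tmul]
  have h7 : S = 0 := by
    obtain ⟨u, hu⟩ := h2
    have h8 : (2 : A) • S = 0 := by rw [two_smul, h6]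
    rw [← hu] at h8
    have h9 := congrArg (fun y => ((u⁻¹ : Aˣ) : A) • y) h8
    simp only [smul_smul, smul_zero, Units.inv_mul, one_smul] at h9
    exact h9
  rw [h1, h7, neg_zero]

/-- The square of the differential is zero. -/
theorem dR_dR (h2 : IsUnit (2 : A)) (b : DB k A) (C : FC k A M) (x : DR k A M) :
    dR b C (dR b C x) = 0 := by
  induction x using TensorProduct.induction_on with
  | zero => rw [map_zero, map_zero]
  | tmul w m =>
    rw [dR_tmul, map_add, dR_tmul, dR_smul, Om.d_d, zero_tmul, dR_nab h2, smul_zero, Om.d_sg,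
      DR.neg_smul]
    abel
  | add x y hx hy => rw [map_add, map_add, hx, hy, add_zero]

section Functor

/-- The map `t` is horizontal. -/
def Hor (f : A →ₐ[k] B) (C : FC k A M) (C' : FC k B N) (t : M → N) : Prop :=
  ∀ (w : Derivation k B B) (n : ℕ) (c : Fin n → B) (v : Fin n → Derivation k A A),
    (∀ a, w (f a) = ∑ i, c i * f (v i a)) → ∀ m, C'.act w (t m) = ∑ i, c i • t (C.act (v i) m)

/-- The pull-back of forms with coefficients. -/
def pbT (f : A →ₐ[k] B) (t : M →+ N) (ht : ∀ (a : A) m, t (a • m) = f a • t m) :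
    DR k A M →+ DR k B N :=
  TensorProduct.liftAddHom
    { toFun := fun w =>
        { toFun := fun m => Om.pb f w ⊗ₜ[B] t m
          map_zero' := by rw [map_zero, tmul_zero]
          map_add' := fun m m' => by rw [map_add, tmul_add] }
      map_zero' := by
        ext m
        change Om.pb f 0 ⊗ₜ[B] t m = 0
        rw [map_zero, zero_tmul]
      map_add' := fun w w' => by
        ext m
        change Om.pb f (w + w') ⊗ₜ[B] t m = Om.pb f w ⊗ₜ[B] t m + Om.pb f w' ⊗ₜ[B] t m
        rw [map_add, add_tmul] }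
    (fun a w m => by
      change Om.pb f (a • w) ⊗ₜ[B] t m = Om.pb f w ⊗ₜ[B] t (a • m)
      rw [Om.pb_smul, ht, smul_tmul])

variable (f : A →ₐ[k] B) (t : M →+ N) (ht : ∀ (a : A) m, t (a • m) = f a • t m)

theorem pbT_tmul (w : Om k A) (m : M) : pbT f t ht (w ⊗ₜ[A] m) = Om.pb f w ⊗ₜ[B] t m := rfl

theorem pbT_smul (w : Om k A) (x : DR k A M) :
    pbT f t ht (w • x) = Om.pb f w • pbT f t ht x := by
  induction x using TensorProduct.induction_on with
  | zero => rw [smul_zero, map_zero, smul_zero]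
  | tmul u m =>
    rw [smul_tmul', smul_eq_mul, pbT_tmul, pbT_tmul, map_mul, smul_tmul', smul_eq_mul]
  | add x y hx hy => rw [smul_add, map_add, hx, hy, map_add, smul_add]

theorem pbT_nab (b : DB k A) (b' : DB k B) (C : FC k A M) (C' : FC k B N)
    (hor : Hor f C C' t) (m : M) : pbT f t ht (nab b C m) = nab b' C' (t m) := by
  have h1 : ∀ j, C'.act (b'.v j) (t m) = ∑ i, b'.v j (f (b.x i)) • t (C.act (b.v i) m) := by
    intro j
    refine hor (b'.v j) b.n (fun i => b'.v j (f (b.x i))) b.v (fun a => ?_) m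
    let _ : Algebra A B := f.toRingHom.toAlgebra
    have : IsScalarTower k A B := IsScalarTower.of_algebraMap_eq fun r => (f.commutes r).symm
    let W : Derivation k A B := (b'.v j).compAlgebraMap A
    have h := congrArg W.liftKaehlerDifferential (b.h a)
    rw [Derivation.liftKaehlerDifferential_comp_D, map_sum] at h
    refine h.trans (Finset.sum_congr rfl fun i _ => ?_)
    rw [map_smul, Derivation.liftKaehlerDifferential_comp_D, Algebra.smul_def, mul_comm]
    rfl
  rw [nab_apply, nab_apply, map_sum]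
  have h2 : ∀ j ∈ Finset.univ, (Om.dd (b'.x j) : Om k B) ⊗ₜ[B] C'.act (b'.v j) (t m) =
      ∑ i, (b'.v j (f (b.x i)) • Om.dd (b'.x j) : Om k B) ⊗ₜ[B] t (C.act (b.v i) m) := by
    intro j _
    rw [h1 j, tmul_sum]
    exact Finset.sum_congr rfl fun i _ => by rw [smul_tmul]
  rw [Finset.sum_congr rfl h2, Finset.sum_comm]
  refine Finset.sum_congr rfl fun i _ => ?_
  rw [pbT_tmul, Om.pb_dd, ← sum_tmul, ← b'.dd]

/-- The pull-back commutes with the differential. -/
theorem pbT_dR (b : DB k A) (b' : DB k B) (C : FC k A M) (C' : FC k B N)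
    (hor : Hor f C C' t) (x : DR k A M) : pbT f t ht (dR b C x) = dR b' C' (pbT f t ht x) := by
  induction x using TensorProduct.induction_on with
  | zero => simp
  | tmul w m =>
    rw [dR_tmul, map_add, pbT_tmul, pbT_smul, pbT_nab f t ht b b' C C' hor, pbT_tmul, dR_tmul,
      Om.pb_d, Om.pb_sg]
  | add x y hx hy => rw [map_add, map_add, hx, hy, map_add, map_add]

end Functor

end

end Vale.Agent.P286.H710
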