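import Vale.Agent.P286.H697.DRF
import Vale.Agent.P286.H710.Pull
import Vale.Agent.P286.H710.OmS
import Vale.Agent.P286.H710.E1a

/-!
# The pull-back of a complex of `D`-modules
-/

namespace Vale.Agent.P286.H710

open Vale.Agent.P286.H847 Vale.Agent.P286.H847.GD Vale.Agent.P286.H697 TensorProduct

noncomputable section

section Gen

variable {A T : Type} [CommRing A] [Algebra ℂ A] [CommRing T] [Algebra ℂ T] [Algebra A T]
  [IsScalarTower ℂ A T]

/-- The homogeneous part of degree `m` of `T ⊗ K`. -/
def pgr (T : Type) [CommRing T] [Algebra ℂ T] [Algebra A T] [IsScalarTower ℂ A T] (K : DGM A)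
    (m : ℤ) : Submodule ℂ (T ⊗[A] K.M.V) :=
  Submodule.span ℂ {z | ∃ (x : T) (y : K.M.V), y ∈ K.M.gr m ∧ x ⊗ₜ[A] y = z}

variable (K : DGM A)

theorem tmul_mem_pgr {m : ℤ} (x : T) {y : K.M.V} (hy : y ∈ K.M.gr m) : x ⊗ₜ[A] y ∈ pgr T K m :=
  Submodule.subset_span ⟨x, y, hy, rfl⟩

/-- Induction on homogeneous elements. -/
theorem pgr_ind {m : ℤ} {Q : T ⊗[A] K.M.V → Prop} (zero : Q 0)
    (tmul : ∀ (x : T) (y : K.M.V), y ∈ K.M.gr m → Q (x ⊗ₜ[A] y))
    (add : ∀ x y, Q x → Q y → Q (x + y)) {z : T ⊗[A] K.M.V} (hz : z ∈ pgr T K m) : Q z := by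
  have h : ∀ c : ℂ, Q (c • z) := by
    refine Submodule.span_induction (p := fun z _ => ∀ c : ℂ, Q (c • z)) ?_ ?_ ?_ ?_ hz
    · rintro _ ⟨x, y, hy, rfl⟩ c
      rw [smul_tmul']
      exact tmul _ _ hy
    · intro c
      rw [smul_zero]
      exact zero
    · intro x y _ _ hx hy c
      rw [smul_add]
      exact add _ _ (hx c) (hy c)
    · intro a x _ hx c
      rw [smul_smul]
      exact hx _
  have := h 1
  rwa [one_smul] at this

/-- The differential of `T ⊗ K`. -/
def pd (T : Type) [CommRing T] [Algebra ℂ T] [Algebra A T] [IsScalarTower ℂ A T] (K : DGM A) :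
    T ⊗[A] K.M.V →ₗ[T] T ⊗[A] K.M.V := K.dA.baseChange T

theorem pd_tmul (x : T) (y : K.M.V) : pd T K (x ⊗ₜ[A] y) = x ⊗ₜ[A] K.M.d y := rfl

/-- The graded differential space `T ⊗ K`. -/
def pGD (T : Type) [CommRing T] [Algebra ℂ T] [Algebra A T] [IsScalarTower ℂ A T] (K : DGM A) :
    GD where
  V := T ⊗[A] K.M.V
  d := (pd T K).restrictScalars ℂ
  dd z := by
    change pd T K (pd T K z) = 0
    induction z using TensorProduct.induction_on with
    | zero => rw [map_zero, map_zero]
    | tmul x y => rw [pd_tmul, pd_tmul, K.M.dd, tmul_zero]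
    | add x y hx hy => rw [map_add, map_add, hx, hy, add_zero]
  gr := pgr T K
  dgr m z hz := by
    change pd T K z ∈ pgr T K (m + 1)
    refine pgr_ind K (Q := fun z => pd T K z ∈ pgr T K (m + 1)) ?_ ?_ ?_ hz
    · rw [map_zero]; exact Submodule.zero_mem _
    · intro x y hy
      exact tmul_mem_pgr K x (K.M.dgr m y hy)
    · intro x y hx hy
      rw [map_add]; exact Submodule.add_mem _ hx hy

theorem gam_d (b : DB ℂ A) (w : Derivation ℂ T T) (m : K.M.V) :
    pd T K (gam b K.C w m) = gam b K.C w (K.M.d m) := by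
  rw [gam_apply, gam_apply, map_sum]
  exact Finset.sum_congr rfl fun i _ => by rw [pd_tmul, K.d_act]

theorem gam_mem (b : DB ℂ A) (w : Derivation ℂ T T) {m : ℤ} {x : K.M.V} (hx : x ∈ K.M.gr m) :
    gam b K.C w x ∈ pgr T K m := by
  rw [gam_apply]
  exact Submodule.sum_mem _ fun i _ => tmul_mem_pgr K _ (K.gr_act m _ x hx)

theorem pgr_smul {m : ℤ} (t : T) {z : T ⊗[A] K.M.V} (hz : z ∈ pgr T K m) :
    t • z ∈ pgr T K m := by
  refine pgr_ind K (Q := fun z => t • z ∈ pgr T K m) ?_ ?_ ?_ hz
  · rw [smul_zero]; exact Submodule.zero_mem _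
  · intro x y hy
    rw [smul_tmul']
    exact tmul_mem_pgr K _ hy
  · intro x y hx hy
    rw [smul_add]; exact Submodule.add_mem _ hx hy

instance pmod : Module T (pGD T K).V := inferInstanceAs (Module T (T ⊗[A] K.M.V))

instance ptow : IsScalarTower ℂ T (pGD T K).V :=
  inferInstanceAs (IsScalarTower ℂ T (T ⊗[A] K.M.V))

/-- The pull-back of a complex of `D`-modules. -/
def pullD (T : Type) [CommRing T] [Algebra ℂ T] [Algebra A T] [IsScalarTower ℂ A T]
    (b : DB ℂ A) (K : DGM A) : DGM T where
  M := pGD T K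
  mod := pmod K
  tow := ptow K
  C := FC.pull T b K.C
  d_smul a x := map_smul (pd T K) a x
  d_act v z := by
    change pd T K (pullAct b K.C v z) = pullAct b K.C v (pd T K z)
    induction z using TensorProduct.induction_on with
    | zero => simp
    | tmul x y =>
      rw [pullAct_tmul, map_add, map_smul, pd_tmul, gam_d, pd_tmul, pullAct_tmul]
    | add x y hx hy => rw [map_add, map_add, hx, hy, map_add, map_add]
  gr_smul m a x hx := pgr_smul K a hx
  gr_act m v z hz := by
    change pullAct b K.C v z ∈ pgr T K m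
    refine pgr_ind K (Q := fun z => pullAct b K.C v z ∈ pgr T K m) ?_ ?_ ?_ hz
    · rw [map_zero]; exact Submodule.zero_mem _
    · intro x y hy
      rw [pullAct_tmul]
      exact Submodule.add_mem _ (tmul_mem_pgr K _ hy) (pgr_smul K _ (gam_mem K b v hy))
    · intro x y hx hy
      rw [map_add]; exact Submodule.add_mem _ hx hy

/-- The homogeneous projections of the pull-back. -/
def pullDec (T : Type) [CommRing T] [Algebra ℂ T] [Algebra A T] [IsScalarTower ℂ A T]
    (b : DB ℂ A) {K : DGM A} (P : DGM.Dec K) : DGM.Dec (pullD T b K) where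
  ρ i := (P.ρ i).baseChange T
  mem i z := by
    change (P.ρ i).baseChange T z ∈ pgr T K i
    change T ⊗[A] K.M.V at z
    induction z using TensorProduct.induction_on with
    | zero => rw [map_zero]; exact Submodule.zero_mem _
    | tmul x y => exact tmul_mem_pgr K x (P.mem i y)
    | add x y hx hy => rw [map_add]; exact Submodule.add_mem _ hx hy
  same i z hz := by
    change (P.ρ i).baseChange T z = z
    refine pgr_ind K (Q := fun z => (P.ρ i).baseChange T z = z) ?_ ?_ ?_ hz
    · rw [map_zero]
    · intro x y hy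
      rw [LinearMap.baseChange_tmul, P.same i y hy]
    · intro x y hx hy
      rw [map_add, hx, hy]
  ne i j z hz h := by
    change (P.ρ i).baseChange T z = 0
    refine pgr_ind K (Q := fun z => (P.ρ i).baseChange T z = 0) ?_ ?_ ?_ hz
    · rw [map_zero]
    · intro x y hy
      rw [LinearMap.baseChange_tmul, P.ne i j y hy h, tmul_zero]
    · intro x y hx hy
      rw [map_add, hx, hy, add_zero]
  sum z := by
    change ∃ s : Finset ℤ, z = ∑ i ∈ s, (P.ρ i).baseChange T z
    change T ⊗[A] K.M.V at z
    -- a finite set outside of which the projections vanish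
    have key : ∃ s : Finset ℤ, z = ∑ i ∈ s, (P.ρ i).baseChange T z ∧
        ∀ i ∉ s, (P.ρ i).baseChange T z = 0 := by
      classical
      induction z using TensorProduct.induction_on with
      | zero => exact ⟨∅, by simp, by simp⟩
      | tmul x y =>
        obtain ⟨s, hs⟩ := P.sum y
        refine ⟨s, ?_, ?_⟩
        · conv_lhs => rw [hs, tmul_sum]
          rfl
        · intro i hi
          rw [LinearMap.baseChange_tmul]
          have : P.ρ i y = 0 := by
            rw [hs, map_sum]
            refine Finset.sum_eq_zero fun j hj => P.ne i j _ (P.mem j y) ?_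
            rintro rfl
            exact hi hj
          rw [this, tmul_zero]
      | add x y hx hy =>
        obtain ⟨s, hs, hs'⟩ := hx
        obtain ⟨t, ht, ht'⟩ := hy
        have e1 : ∑ i ∈ s ∪ t, (P.ρ i).baseChange T x = x := by
          refine Eq.trans (Finset.sum_subset Finset.subset_union_left
            fun i _ hi => hs' i hi).symm hs.symm
        have e2 : ∑ i ∈ s ∪ t, (P.ρ i).baseChange T y = y := by
          refine Eq.trans (Finset.sum_subset Finset.subset_union_right
            fun i _ hi => ht' i hi).symm ht.symm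
        refine ⟨s ∪ t, ?_, ?_⟩
        · rw [Finset.sum_congr rfl fun i _ => map_add _ x y, Finset.sum_add_distrib, e1, e2]
        · intro i hi
          rw [Finset.mem_union, not_or] at hi
          rw [map_add, hs' i hi.1, ht' i hi.2, add_zero]
    obtain ⟨s, hs, _⟩ := key
    exact ⟨s, hs⟩

end Gen

section Tr

variable {A T : Type} [CommRing A] [Algebra ℂ A] [CommRing T] [Algebra ℂ T]

/-- A transition map of complexes of `D`-modules along a homomorphism. -/
structure TrM (f : A →ₐ[ℂ] T) (K : DGM A) (L : DGM T) where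
  u : GD.Hom K.M L.M
  smul : ∀ (a : A) m, u.f (a • m) = f a • u.f m
  hor : Hor f K.C L.C u.f.toAddMonoidHom

variable {f : A →ₐ[ℂ] T} {K : DGM A} {L : DGM T}

/-- The underlying additive map. -/
def TrM.a (t : TrM f K L) : K.M.V →+ L.M.V := t.u.f.toAddMonoidHom

theorem TrM.a_apply (t : TrM f K L) (m : K.M.V) : t.a m = t.u.f m := rfl

theorem TrM.a_smul (t : TrM f K L) (a : A) (m : K.M.V) : t.a (a • m) = f a • t.a m := t.smul a m

theorem TrM.a_hor (t : TrM f K L) : Hor f K.C L.C t.a := t.hor

theorem TrM.a_dA (t : TrM f K L) (x : K.M.V) : t.a (K.dA x) = L.dA (t.a x) := t.u.comm x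

/-- The transition map of the de Rham complexes. -/
def TrM.dr (t : TrM f K L) (b : DB ℂ A) (b' : DB ℂ T) :
    GD.Hom (DGM.DRg b K) (DGM.DRg b' L) where
  f := pbC f t.a t.a_smul
  comm x := by
    change pbT f t.a t.a_smul (K.D b x) = L.D b' (pbT f t.a t.a_smul x)
    rw [DGM.D_apply, DGM.D_apply, map_add, pbT_dR f t.a t.a_smul b b' K.C L.C t.a_hor,
      pbT_sgT f t.a t.a_smul t.a t.a_smul K.dA L.dA t.a_dA]
  deg m x hx := by
    change pbT f t.a t.a_smul x ∈ L.gr m
    change x ∈ K.gr m at hx
    induction hx using K.gr_ind with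
    | zero => rw [map_zero]; exact zero_mem _
    | tmul q i h w' hw' x hx =>
      rw [pbT_tmul]
      exact L.tmul_mem h (Om.pb_mem _ hw') (t.u.deg i x hx)
    | add x y _ _ hx hy => rw [map_add]; exact Submodule.add_mem _ hx hy

theorem TrM.dr_apply (t : TrM f K L) (b : DB ℂ A) (b' : DB ℂ T) (x : DR ℂ A K.M.V) :
    (t.dr b b').f x = pbT f t.a t.a_smul x := rfl

end Tr

section Pt

variable {A T : Type} [CommRing A] [Algebra ℂ A] [CommRing T] [Algebra ℂ T] [Algebra A T]
  [IsScalarTower ℂ A T] (b : DB ℂ A) {K : DGM A} {L : DGM T}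

/-- The map from `K` to its pull-back. -/
def pullI (K : DGM A) : TrM (sA ℂ A T) K (pullD T b K) where
  u :=
    { f :=
        { toFun := fun m => (1 : T) ⊗ₜ[A] m
          map_add' := fun m m' => tmul_add _ _ _
          map_smul' := fun c m => by
            change (1 : T) ⊗ₜ[A] (c • m) = c • ((1 : T) ⊗ₜ[A] m)
            rw [tmul_smul] }
      comm := fun x => rfl
      deg := fun m x hx => tmul_mem_pgr K 1 hx }
  smul a m := pullT_smul a m
  hor := pullT_hor b K.C

theorem TrM.smulT (t : TrM (sA ℂ A T) K L) (a : A) (m : K.M.V) :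
    t.a (a • m) = algebraMap A T a • t.a m := t.smul a m

/-- The map from the pull-back defined by a transition map. -/
def pullM (t : TrM (sA ℂ A T) K L) : DGM.Mor (pullD T b K) L where
  u :=
    { f := (pullU t.a t.smulT).restrictScalars ℂ
      comm := fun z => by
        change pullU t.a t.smulT (pd T K z) =
          L.M.d (pullU t.a t.smulT z)
        change T ⊗[A] K.M.V at z
        induction z using TensorProduct.induction_on with
        | zero => rw [map_zero, map_zero, map_zero]
        | tmul x y =>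
          rw [pd_tmul, pullU_tmul, pullU_tmul, L.d_smul]
          congr 1
          exact t.u.comm y
        | add x y hx hy => rw [map_add, map_add, hx, hy, map_add, map_add]
      deg := fun m z hz => by
        change pullU t.a t.smulT z ∈ L.M.gr m
        refine pgr_ind K (Q := fun z => pullU t.a t.smulT z ∈ L.M.gr m)
          ?_ ?_ ?_ hz
        · rw [map_zero]; exact Submodule.zero_mem _
        · intro x y hy
          rw [pullU_tmul]
          exact L.gr_smul m x _ (t.u.deg m y hy)
        · intro x y hx hy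
          rw [map_add]; exact Submodule.add_mem _ hx hy }
  smul a x := map_smul (pullU t.a t.smulT) a x
  act v x := pullU_act t.a t.smulT b K.C L.C t.a_hor v x

theorem pullM_tmul (t : TrM (sA ℂ A T) K L) (x : T) (m : K.M.V) :
    (pullM b t).u.f (x ⊗ₜ[A] m) = x • t.u.f m := rfl

/-- The factorization of a transition map. -/
theorem dr_factor (t : TrM (sA ℂ A T) K L) (b' : DB ℂ T) (y : DR ℂ A K.M.V) :
    (DGM.DRg.map b' (pullM b t)).f (((pullI b K).dr b b').f y) = (t.dr b b').f y := by
  induction y using DR.induction with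
  | zero => rw [map_zero, map_zero, map_zero]
  | tmul w x =>
    change Om.pb (sA ℂ A T) w ⊗ₜ[T] ((1 : T) • t.u.f x) = Om.pb (sA ℂ A T) w ⊗ₜ[T] t.u.f x
    rw [one_smul]
  | add x y hx hy => rw [map_add, map_add, hx, hy, map_add]

end Pt

end

end Vale.Agent.P286.H710
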